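import Mathlib

/-!
Elementary facts on locally nilpotent derivations of a domain of characteristic zero.
-/

namespace Vale.Agent.P295.Fib

variable {S : Type} [CommRing S] [Algebra ℂ S] (D : Derivation ℂ S S)

/-- Every element is killed by some iterate. -/
def IsLN : Prop := ∀ a, ∃ n : ℕ, D^[n] a = 0

theorem iter_add (n : ℕ) (a b : S) : D^[n] (a + b) = D^[n] a + D^[n] b :=
  iterate_map_add D n a b

theorem iter_zero (n : ℕ) : D^[n] (0 : S) = 0 :=
  iterate_map_zero D n

theorem iter_eq_zero_of_le {m n : ℕ} {a : S} (h : D^[m] a = 0) (hmn : m ≤ n) : D^[n] a = 0 := by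
  obtain ⟨k, rfl⟩ := Nat.exists_eq_add_of_le hmn
  rw [add_comm, Function.iterate_add_apply, h, iter_zero]

theorem iter_mul : ∀ (N m n : ℕ) (a b : S), m + n = N → D^[m + 1] a = 0 → D^[n + 1] b = 0 →
    D^[N] (a * b) = (N.choose m : S) * (D^[m] a * D^[n] b) := by
  intro N
  induction N with
  | zero =>
    intro m n a b h _ _
    obtain ⟨rfl, rfl⟩ := Nat.add_eq_zero_iff.1 h
    simp
  | succ N ih =>
    intro m n a b h ha hb
    rw [Function.iterate_succ_apply, D.leibniz, smul_eq_mul, smul_eq_mul, iter_add]
    rcases m with _ | m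
    · obtain rfl : n = N + 1 := by omega
      have h0 : D a = 0 := by simpa using ha
      rw [h0, mul_zero, iter_zero, add_zero, ih 0 N a (D b) (by omega) ha
        (by simpa only [← Function.iterate_succ_apply] using hb),
        ← Function.iterate_succ_apply D N b, Nat.choose_zero_right, Nat.choose_zero_right,
        Function.iterate_zero_apply]
    · rcases n with _ | n
      · obtain rfl : m = N := by omega
        have h0 : D b = 0 := by simpa using hb
        rw [h0, mul_zero, iter_zero, zero_add, mul_comm b (D a), ih m 0 (D a) b (by omega)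
          (by simpa only [← Function.iterate_succ_apply] using ha) hb,
          ← Function.iterate_succ_apply D m a, Nat.choose_self, Nat.choose_self,
          Function.iterate_zero_apply]
      · rw [ih (m + 1) n a (D b) (by omega) ha
          (by simpa only [← Function.iterate_succ_apply] using hb), mul_comm b (D a),
          ih m (n + 1) (D a) b (by omega)
          (by simpa only [← Function.iterate_succ_apply] using ha) hb]
        rw [← Function.iterate_succ_apply D n b, ← Function.iterate_succ_apply D m a,
          Nat.choose_succ_succ' N m, Nat.cast_add]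
        ring

theorem exists_top (hD : IsLN D) {a : S} (ha : a ≠ 0) :
    ∃ m, D^[m] a ≠ 0 ∧ D^[m + 1] a = 0 := by
  classical
  have hpos : Nat.find (hD a) ≠ 0 := by
    intro h
    have := Nat.find_spec (hD a)
    rw [h] at this
    exact ha this
  obtain ⟨m, hm⟩ := Nat.exists_eq_succ_of_ne_zero hpos
  refine ⟨m, Nat.find_min (hD a) (by omega), ?_⟩
  have := Nat.find_spec (hD a)
  rwa [hm] at this

theorem iter_mul_ne [IsDomain S] [CharZero S] {m n : ℕ} {a b : S}
    (ha : D^[m] a ≠ 0) (ha' : D^[m + 1] a = 0) (hb : D^[n] b ≠ 0) (hb' : D^[n + 1] b = 0) :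
    D^[m + n] (a * b) ≠ 0 := by
  rw [iter_mul D (m + n) m n a b rfl ha' hb']
  refine mul_ne_zero ?_ (mul_ne_zero ha hb)
  exact_mod_cast (Nat.choose_pos (Nat.le_add_right m n)).ne'

theorem ker_factor [IsDomain S] [CharZero S] (hD : IsLN D) {a b : S} (h : D (a * b) = 0)
    (ha : a ≠ 0) (hb : b ≠ 0) : D a = 0 := by
  obtain ⟨m, hm, hm'⟩ := exists_top D hD ha
  obtain ⟨n, hn, hn'⟩ := exists_top D hD hb
  by_contra hne
  have hm1 : 1 ≤ m := by
    by_contra h0
    obtain rfl : m = 0 := by omega
    exact hne hm'
  exact iter_mul_ne D hm hm' hn hn'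
    (iter_eq_zero_of_le D (m := 1) h (hm1.trans (Nat.le_add_right m n)))

theorem eq_zero_of_dvd [IsDomain S] [CharZero S] (hD : IsLN D) {a b : S} (h : D a = b * a) :
    D a = 0 := by
  by_contra hne
  obtain ⟨ha, hb⟩ : a ≠ 0 ∧ b ≠ 0 := by
    constructor <;> rintro rfl <;> simp at h <;> exact hne (by simp [h])
  obtain ⟨m, hm, hm'⟩ := exists_top D hD ha
  obtain ⟨n, hn, hn'⟩ := exists_top D hD hb
  refine iter_mul_ne D hn hn' hm hm' ?_
  rw [← h, ← Function.iterate_succ_apply]
  exact iter_eq_zero_of_le D hm' (by omega)

/-- A derivation induced on the image of a surjective map whose kernel it respects. -/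
noncomputable def descend {T : Type} [CommRing T] [Algebra ℂ T] (p : S →ₐ[ℂ] T)
    (hp : Function.Surjective p) (hk : ∀ a, p a = 0 → p (D a) = 0) : Derivation ℂ T T :=
  Derivation.mk'
    { toFun := fun t => p (D (Function.surjInv hp t))
      map_add' := fun x y => by
        rw [← map_add, ← D.map_add, ← sub_eq_zero, ← map_sub, ← D.map_sub]
        exact hk _ (by simp [Function.surjInv_eq hp])
      map_smul' := fun c x => by
        rw [RingHom.id_apply, ← map_smul, ← D.map_smul, ← sub_eq_zero, ← map_sub, ← D.map_sub]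
        exact hk _ (by simp [Function.surjInv_eq hp]) }
    fun x y => by
      show p (D (Function.surjInv hp (x * y))) = x • p (D (Function.surjInv hp y))
        + y • p (D (Function.surjInv hp x))
      have h : p (D (Function.surjInv hp (x * y)))
          = p (D (Function.surjInv hp x * Function.surjInv hp y)) := by
        rw [← sub_eq_zero, ← map_sub, ← D.map_sub]
        exact hk _ (by simp [Function.surjInv_eq hp])
      rw [h, D.leibniz]
      simp [Function.surjInv_eq hp]

theorem descend_apply {T : Type} [CommRing T] [Algebra ℂ T] (p : S →ₐ[ℂ] T)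
    (hp : Function.Surjective p) (hk : ∀ a, p a = 0 → p (D a) = 0) (a : S) :
    descend D p hp hk (p a) = p (D a) := by
  show p (D (Function.surjInv hp (p a))) = p (D a)
  rw [← sub_eq_zero, ← map_sub, ← D.map_sub]
  exact hk _ (by simp [Function.surjInv_eq hp])

theorem descend_isLN {T : Type} [CommRing T] [Algebra ℂ T] (p : S →ₐ[ℂ] T)
    (hp : Function.Surjective p) (hk : ∀ a, p a = 0 → p (D a) = 0) (hD : IsLN D) :
    IsLN (descend D p hp hk) := by
  intro t
  obtain ⟨a, rfl⟩ := hp t
  obtain ⟨n, hn⟩ := hD a
  refine ⟨n, ?_⟩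
  have : ∀ j, (descend D p hp hk)^[j] (p a) = p (D^[j] a) := by
    intro j
    induction j with
    | zero => rfl
    | succ j ih => rw [Function.iterate_succ_apply', ih, descend_apply, Function.iterate_succ_apply']
  rw [this n, hn, map_zero]

end Vale.Agent.P295.Fib
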