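import Vale.Agent.P295.Fib.SurfaceLnd

/-!
The key lemma on `R[Y]`, `R` the surface ring: a locally nilpotent derivation cannot kill a nonzero
polynomial vanishing on the graph of `x + y`.
-/

namespace Vale.Agent.P295.Fib

open MvPolynomial Finset

/-- Restriction to the graph `Y = x + y`. -/
noncomputable def toGraph : Polynomial Surf →ₐ[ℂ] Plane :=
  Polynomial.aevalTower toPlane.range.val (X 0 + X 1)

theorem eval_toGraph_monomial (a : Fin 2 → ℂ) (i : ℕ) (h : Space) :
    eval a (toGraph (Polynomial.monomial i (toSurf h)))
      = eval (fun l => eval a (img l)) h * (a 0 + a 1) ^ i := by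
  rw [← Polynomial.C_mul_X_pow_eq_monomial, map_mul, map_pow, map_mul, map_pow]
  simp [toGraph, eval_toPlane]

section leading

variable (δ : Derivation ℂ Surf Surf) (β : Surf) (k : ℕ)

/-- The homogeneous derivation `Y^k (δ + β Y d/dY)`. -/
noncomputable def topLin : Polynomial Surf →ₗ[ℂ] Polynomial Surf :=
  Polynomial.lsum fun i =>
    ((Polynomial.monomial (i + k)).restrictScalars ℂ).comp
      ((δ : Surf →ₗ[ℂ] Surf) + LinearMap.mulLeft ℂ ((i : Surf) * β))

theorem topLin_monomial (i : ℕ) (a : Surf) :
    topLin δ β k (Polynomial.monomial i a) = Polynomial.monomial (i + k) (δ a + (i : Surf) * β * a) := by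
  simp [topLin, Polynomial.sum_monomial_index, mul_assoc]

/-- The same as a derivation. -/
noncomputable def topDer : Derivation ℂ (Polynomial Surf) (Polynomial Surf) where
  toLinearMap := topLin δ β k
  map_one_eq_zero' := by
    rw [← Polynomial.monomial_zero_one, topLin_monomial]
    simp
  leibniz' p q := by
    show _ = p * topLin δ β k q + q * topLin δ β k p
    induction p using Polynomial.induction_on' with
    | add p₁ p₂ h1 h2 => rw [add_mul, map_add, h1, h2, map_add]; ring
    | monomial i a =>
      induction q using Polynomial.induction_on' with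
      | add q₁ q₂ h1 h2 => rw [mul_add, map_add, h1, h2, map_add]; ring
      | monomial j b =>
        rw [Polynomial.monomial_mul_monomial, topLin_monomial, topLin_monomial, topLin_monomial,
          Polynomial.monomial_mul_monomial, Polynomial.monomial_mul_monomial,
          show j + (i + k) = i + j + k by ring, show i + (j + k) = i + j + k by ring, ← map_add]
        congr 1
        rw [δ.leibniz, smul_eq_mul, smul_eq_mul, Nat.cast_add]
        ring

theorem topDer_monomial (i : ℕ) (a : Surf) :
    topDer δ β k (Polynomial.monomial i a) = Polynomial.monomial (i + k) (δ a + (i : Surf) * β * a) :=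
  topLin_monomial δ β k i a

end leading

theorem deriv_C_zero (D : Derivation ℂ (Polynomial Surf) (Polynomial Surf))
    (h : ∀ i, D (Polynomial.C (gS i)) = 0) (r : Surf) : D (Polynomial.C r) = 0 := by
  obtain ⟨p, rfl⟩ := toSurf_surjective r
  induction p using MvPolynomial.induction_on with
  | C c =>
    rw [show Polynomial.C (toSurf (C c)) = algebraMap ℂ (Polynomial Surf) c from
      congrArg Polynomial.C (toSurf.commutes c), D.map_algebraMap]
  | add p q hp hq => simp only [map_add, hp, hq, add_zero]
  | mul_X p i hp =>
    rw [map_mul, map_mul, D.leibniz, hp]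
    rw [show D (Polynomial.C (toSurf (X i))) = 0 from h i]
    simp

theorem natDegree_deriv_C (D : Derivation ℂ (Polynomial Surf) (Polynomial Surf)) (k : ℕ)
    (h : ∀ i, (D (Polynomial.C (gS i))).natDegree ≤ k) (r : Surf) :
    (D (Polynomial.C r)).natDegree ≤ k := by
  obtain ⟨p, rfl⟩ := toSurf_surjective r
  induction p using MvPolynomial.induction_on with
  | C c =>
    rw [show Polynomial.C (toSurf (C c)) = algebraMap ℂ (Polynomial Surf) c from
      congrArg Polynomial.C (toSurf.commutes c), D.map_algebraMap]
    simp
  | add p q hp hq =>
    rw [map_add, map_add, map_add]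
    exact (Polynomial.natDegree_add_le _ _).trans (max_le hp hq)
  | mul_X p i hp =>
    rw [map_mul, map_mul, D.leibniz, smul_eq_mul, smul_eq_mul]
    exact (Polynomial.natDegree_add_le _ _).trans
      (max_le ((Polynomial.natDegree_C_mul_le _ _).trans (h i))
        ((Polynomial.natDegree_C_mul_le _ _).trans hp))

theorem coeff_top_zero {n : ℕ} (f : Polynomial Surf) (hf : f.natDegree ≤ n)
    (g : Fin 3 → Polynomial ℂ) (hfz : toGraph f = 0) (t : ℂ) (ht : t ≠ 0) (ε' : Polynomial ℂ)
    (he : ε'.eval 0 = t)
    (hg : ∀ z : ℂ, z ≠ 0 → ∃ a : Fin 2 → ℂ,
      ((fun i => (g i).eval z) = fun i => eval a (img i)) ∧ ε'.eval z = z * (a 0 + a 1))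
    (h : Space) (hh : toSurf h = f.coeff n) : eval (fun i => (g i).eval 0) h = 0 := by
  classical
  choose H hH using fun i => toSurf_surjective (f.coeff i)
  have hsum : ∑ i ∈ range (n + 1), aeval g (Function.update H n h i) * ε' ^ i
      * Polynomial.X ^ (n - i) = 0 := by
    refine poly_eq_zero_of_ne fun z hz => ?_
    obtain ⟨a, ha, hb⟩ := hg z hz
    have hf' : eval a (toGraph f) = 0 := by rw [hfz, map_zero]
    rw [f.as_sum_range' (n + 1) (by omega), map_sum, map_sum] at hf'
    rw [Polynomial.eval_finsetSum]
    calc ∑ i ∈ range (n + 1),
          (aeval g (Function.update H n h i) * ε' ^ i * Polynomial.X ^ (n - i)).eval z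
        = ∑ i ∈ range (n + 1), z ^ n * eval a (toGraph (Polynomial.monomial i (f.coeff i))) := by
          refine sum_congr rfl fun i hi => ?_
          have hi' : toSurf (Function.update H n h i) = f.coeff i := by
            by_cases e : i = n
            · subst e; rw [Function.update_self, hh]
            · rw [Function.update_of_ne e, hH]
          rw [← hi', eval_toGraph_monomial, Polynomial.eval_mul, Polynomial.eval_mul,
            Polynomial.eval_pow, Polynomial.eval_pow, Polynomial.eval_X, eval_aeval_poly, ha, hb]
          have : z ^ n = z ^ i * z ^ (n - i) := by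
            rw [← pow_add]; congr 1; have := mem_range.1 hi; omega
          rw [this, mul_pow]; ring
      _ = 0 := by rw [← mul_sum, hf', mul_zero]
  have h0 := congrArg (Polynomial.eval 0) hsum
  rw [Polynomial.eval_finsetSum, Polynomial.eval_zero, sum_eq_single n] at h0
  · rw [Function.update_self] at h0
    simpa [eval_aeval_poly, he, pow_ne_zero n ht] using h0
  · intro i hi hne
    have : n - i ≠ 0 := by have := mem_range.1 hi; omega
    simp [zero_pow this]
  · simp

theorem poly_no_kernel (D : Derivation ℂ (Polynomial Surf) (Polynomial Surf))
    (hD : IsLN (S := Polynomial Surf) D)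
    (hne : ∃ a, D a ≠ 0) {f : Polynomial Surf} (hk : D f = 0) (hf : toGraph f = 0) : f = 0 := by
  classical
  by_cases hC : ∀ i, D (Polynomial.C (gS i)) = 0
  · have hR := deriv_C_zero D hC
    have hder : ∀ p : Polynomial Surf, D p = Polynomial.derivative p * D Polynomial.X := by
      intro p
      induction p using Polynomial.induction_on' with
      | add p q hp hq => rw [map_add, hp, hq, map_add, add_mul]
      | monomial i a =>
        rw [← Polynomial.C_mul_X_pow_eq_monomial, D.leibniz, D.leibniz_pow, hR, smul_zero,
          add_zero, Polynomial.derivative_C_mul_X_pow]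
        simp only [smul_eq_mul, nsmul_eq_mul, map_mul, map_natCast]
        ring
    obtain ⟨a, ha⟩ := hne
    have hY : D Polynomial.X ≠ 0 := fun e => ha (by rw [hder, e, mul_zero])
    rw [hder] at hk
    have h1 : Polynomial.derivative f = 0 := (mul_eq_zero.1 hk).resolve_right hY
    rw [Polynomial.eq_C_of_derivative_eq_zero h1] at hf ⊢
    rw [toGraph, Polynomial.aevalTower_C] at hf
    rw [show f.coeff 0 = 0 from Subtype.ext hf, Polynomial.C_0]
  · push Not at hC
    obtain ⟨i₀, hi₀⟩ := hC
    set k := max (univ.sup fun i => (D (Polynomial.C (gS i))).natDegree)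
      ((D Polynomial.X).natDegree - 1) with hk0
    have hgk : ∀ i, (D (Polynomial.C (gS i))).natDegree ≤ k := fun i =>
      le_max_of_le_left (le_sup (f := fun i => (D (Polynomial.C (gS i))).natDegree) (mem_univ i))
    have hYk : (D Polynomial.X).natDegree ≤ k + 1 := by omega
    have hRk := natDegree_deriv_C D k hgk
    let δ : Derivation ℂ Surf Surf := Derivation.mk'
      { toFun := fun r => (D (Polynomial.C r)).coeff k
        map_add' := fun a b => by simp
        map_smul' := fun c a => by
          rw [RingHom.id_apply, show Polynomial.C (c • a) = c • Polynomial.C a from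
            (Polynomial.smul_C c a).symm, D.map_smul, Polynomial.coeff_smul] }
      fun a b => by
        show (D (Polynomial.C (a * b))).coeff k
          = a • (D (Polynomial.C b)).coeff k + b • (D (Polynomial.C a)).coeff k
        simp [Polynomial.C_mul, D.leibniz, Polynomial.coeff_C_mul]
    let β : Surf := (D Polynomial.X).coeff (k + 1)
    have key : ∀ (p : Polynomial Surf) (n : ℕ), p.natDegree ≤ n →
        (D p).natDegree ≤ n + k ∧ (D p).coeff (n + k) = δ (p.coeff n) + (n : Surf) * β * p.coeff n := by
      intro p n hp
      rw [p.as_sum_range' (n + 1) (by omega), map_sum]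
      have hi : ∀ i ∈ range (n + 1), (D (Polynomial.monomial i (p.coeff i))).natDegree ≤ n + k ∧
          (D (Polynomial.monomial i (p.coeff i))).coeff (n + k)
            = if i = n then δ (p.coeff n) + (n : Surf) * β * p.coeff n else 0 := by
        intro i hin
        have hin' : i ≤ n := Nat.lt_succ_iff.1 (mem_range.1 hin)
        have hA : (Polynomial.X ^ i * D (Polynomial.C (p.coeff i))).natDegree ≤ i + k :=
          Polynomial.natDegree_mul_le.trans (by
            have := hRk (p.coeff i); simp; omega)
        have hB : (Polynomial.C ((i : Surf) * p.coeff i)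
            * (Polynomial.X ^ (i - 1) * D Polynomial.X)).natDegree ≤ i + k := by
          rcases i with _ | i
          · simp
          · refine (Polynomial.natDegree_C_mul_le _ _).trans
              (Polynomial.natDegree_mul_le.trans ?_)
            simp; omega
        have hd : D (Polynomial.monomial i (p.coeff i)) = Polynomial.X ^ i * D (Polynomial.C (p.coeff i))
            + Polynomial.C ((i : Surf) * p.coeff i) * (Polynomial.X ^ (i - 1) * D Polynomial.X) := by
          rw [← Polynomial.C_mul_X_pow_eq_monomial, D.leibniz, D.leibniz_pow]
          simp only [smul_eq_mul, nsmul_eq_mul, map_mul, map_natCast]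
          ring
        rw [hd]
        refine ⟨(Polynomial.natDegree_add_le _ _).trans (max_le (hA.trans (by omega))
          (hB.trans (by omega))), ?_⟩
        split_ifs with hn
        · subst hn
          rw [Polynomial.coeff_add, Polynomial.coeff_C_mul, add_comm i k, Polynomial.coeff_X_pow_mul]
          congr 1
          rcases i with _ | i
          · simp
          · rw [show k + (i + 1) = k + 1 + i by ring, Nat.add_sub_cancel,
              Polynomial.coeff_X_pow_mul]
            show _ = _ * β * _
            push_cast
            ring
        · rw [Polynomial.coeff_add, Polynomial.coeff_eq_zero_of_natDegree_lt (by omega),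
            Polynomial.coeff_eq_zero_of_natDegree_lt (by omega), add_zero]
      refine ⟨Polynomial.natDegree_sum_le_of_forall_le _ _ fun i h' => (hi i h').1, ?_⟩
      rw [Polynomial.finsetSum_coeff, sum_congr rfl fun i h' => (hi i h').2, sum_ite_eq' ,
        if_pos (self_mem_range_succ n), ← p.as_sum_range' (n + 1) (by omega)]
    let E := topDer δ β k
    have hE : IsLN (S := Polynomial Surf) E := by
      intro p
      induction p using Polynomial.induction_on' with
      | add p q hp hq =>
        obtain ⟨i, hi⟩ := hp
        obtain ⟨j, hj⟩ := hq
        refine ⟨max i j, ?_⟩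
        rw [iterate_map_add, iter_eq_zero_of_le (S := Polynomial Surf) E hi (le_max_left _ _),
          iter_eq_zero_of_le (S := Polynomial Surf) E hj (le_max_right _ _)]
        exact add_zero 0
      | monomial i a =>
        obtain ⟨j, hj⟩ := hD (Polynomial.monomial i a)
        refine ⟨j, ?_⟩
        have kj : ∀ m : ℕ, (D^[m] (Polynomial.monomial i a)).natDegree ≤ i + m * k ∧
            E^[m] (Polynomial.monomial i a) = Polynomial.monomial (i + m * k)
              ((D^[m] (Polynomial.monomial i a)).coeff (i + m * k)) := by
          intro m
          induction m with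
          | zero =>
            simp only [zero_mul, add_zero, Function.iterate_zero_apply]
            exact ⟨Polynomial.natDegree_monomial_le _, by rw [Polynomial.coeff_monomial_same]⟩
          | succ m ih =>
            obtain ⟨h1, h2⟩ := key _ _ ih.1
            simp only [Function.iterate_succ_apply']
            rw [show i + (m + 1) * k = i + m * k + k by ring]
            refine ⟨h1, ?_⟩
            rw [ih.2, h2]
            exact topDer_monomial δ β k _ _
        rw [(kj j).2, hj, Polynomial.coeff_zero, map_zero]
    have hβ : β = 0 := by
      have h1 : E Polynomial.X = Polynomial.monomial k β * Polynomial.X := by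
        rw [← Polynomial.monomial_one_one_eq_X, topDer_monomial, Polynomial.monomial_mul_monomial,
          add_comm 1 k]
        congr 1
        simp
      have h2 := eq_zero_of_dvd (S := Polynomial Surf) E hE h1
      rw [h2] at h1
      have h3 := congrArg (fun q => Polynomial.coeff q (k + 1)) h1
      simp [Polynomial.coeff_mul_X] at h3
      exact h3.symm
    have hδ : IsLN δ := by
      intro r
      obtain ⟨j, hj⟩ := hE (Polynomial.monomial 0 r)
      refine ⟨j, ?_⟩
      have hm : ∀ m : ℕ, E^[m] (Polynomial.monomial 0 r) = Polynomial.monomial (m * k) (δ^[m] r) := by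
        intro m
        induction m with
        | zero => simp
        | succ m ih =>
          rw [Function.iterate_succ_apply', ih, topDer_monomial, hβ, Function.iterate_succ_apply',
            add_one_mul]
          simp
      rw [hm j] at hj
      exact Polynomial.monomial_eq_zero_iff _ _ |>.1 hj
    have hδne : ∃ i, δ (gS i) ≠ 0 := by
      by_contra hall
      push Not at hall
      rcases Nat.eq_zero_or_pos k with hk' | hk'
      · apply hi₀
        have h1 : (D (Polynomial.C (gS i₀))).natDegree ≤ 0 := hk' ▸ hgk i₀
        rw [Polynomial.eq_C_of_natDegree_le_zero h1]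
        have h2 : (D (Polynomial.C (gS i₀))).coeff k = 0 := hall i₀
        rw [hk'] at h2
        rw [h2, map_zero]
      · rcases max_choice (univ.sup fun i => (D (Polynomial.C (gS i))).natDegree)
          ((D Polynomial.X).natDegree - 1) with hm | hm
        · obtain ⟨i, -, hi⟩ := exists_mem_eq_sup univ univ_nonempty
            fun i => (D (Polynomial.C (gS i))).natDegree
          have h1 : (D (Polynomial.C (gS i))).natDegree = k := by omega
          have h2 : (D (Polynomial.C (gS i))).coeff k = 0 := hall i
          rw [← h1, ← Polynomial.leadingCoeff, Polynomial.leadingCoeff_eq_zero] at h2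
          rw [h2, Polynomial.natDegree_zero] at h1
          omega
        · have h1 : (D Polynomial.X).natDegree = k + 1 := by omega
          have h2 : (D Polynomial.X).coeff (k + 1) = 0 := hβ
          rw [← h1, ← Polynomial.leadingCoeff, Polynomial.leadingCoeff_eq_zero] at h2
          rw [h2, Polynomial.natDegree_zero] at h1
          omega
    obtain ⟨h, hh⟩ := toSurf_surjective (f.coeff f.natDegree)
    have hδf : δ (toSurf h) = 0 := by
      have h1 := (key f f.natDegree le_rfl).2
      rw [hk, Polynomial.coeff_zero, hβ] at h1
      rw [hh]
      simpa using h1.symm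
    have hM : onM h = 0 := by
      refine poly_eq_zero_of_ne fun t ht => ?_
      have h1 := coeff_top_zero f le_rfl
        ![Polynomial.C t, Polynomial.X * (1 + Polynomial.X) * (2 + Polynomial.X) * Polynomial.C t⁻¹,
          1 + Polynomial.X] hf t ht
        (Polynomial.C t + (1 + Polynomial.X) * Polynomial.X ^ 2 * Polynomial.C t⁻¹) (by simp)
        (fun z hz => ⟨![t / z, (1 + z) * z / t], funext fun i => by
          fin_cases i <;> simp [img] <;> field_simp <;> ring, by simp; field_simp⟩) h hh
      rw [onM, eval_aeval_poly]
      refine (congrArg (fun z => eval z h) (funext fun i => ?_)).trans h1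
      fin_cases i <;> simp
    have hL : onL h = 0 := by
      refine poly_eq_zero_of_ne fun t ht => ?_
      have h1 := coeff_top_zero f le_rfl
        ![Polynomial.X * (-1 + Polynomial.X) * (-2 + Polynomial.X) * Polynomial.C t⁻¹, Polynomial.C t,
          -1 + Polynomial.X] hf t ht
        (Polynomial.C t + (-1 + Polynomial.X) * Polynomial.X ^ 2 * Polynomial.C t⁻¹) (by simp)
        (fun z hz => ⟨![(-1 + z) * z / t, t / z], funext fun i => by
          fin_cases i <;> simp [img] <;> field_simp <;> ring, by simp; field_simp; ring⟩) h hh
      rw [onL, eval_aeval_poly]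
      refine (congrArg (fun z => eval z h) (funext fun i => ?_)).trans h1
      fin_cases i <;> simp
    have h0 := surface_no_kernel δ hδ hδne hδf hM hL
    rw [hh, ← Polynomial.leadingCoeff, Polynomial.leadingCoeff_eq_zero] at h0
    exact h0

end Vale.Agent.P295.Fib
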