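import Vale.Agent.P295.Fib.Defs
import Vale.Agent.P295.Fib.Poly

/-!
The subring `ℂ[s, u, v, q, Y]` of the fibration ring and its reduction modulo `s`.
-/

namespace Vale.Agent.P295.Fib

open MvPolynomial Finset

/-- Polynomials in `s, u, v, q, Y`. -/
abbrev Base : Type := MvPolynomial (Fin 5) ℂ

/-- `u, v, q` and `Y` in `Aff`. -/
noncomputable def baseVal : Fin 5 → Aff :=
  ![gen 0, uOf (gen 0) (gen 1) (gen 2) (gen 3) (gen 4),
    vOf (gen 0) (gen 1) (gen 2) (gen 3) (gen 4), qOf (gen 0) (gen 1) (gen 2) (gen 4),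
    gen 1 + gen 2]

/-- The map onto the subring. -/
noncomputable def toAff : Base →ₐ[ℂ] Aff := aeval baseVal

/-- Reduction modulo `s`. -/
noncomputable def toFibre : Base →ₐ[ℂ] Polynomial Surf :=
  aeval ![0, Polynomial.C (gS 0), Polynomial.C (gS 1), Polynomial.C (gS 2), Polynomial.X]

/-- Evaluation of `R[Y]` at a point. -/
noncomputable def evPt (a : Fin 2 → ℂ) (y : ℂ) : Polynomial Surf →ₐ[ℂ] ℂ :=
  Polynomial.aevalTower ((aeval a).comp toPlane.range.val) y

theorem evPt_toFibre (a : Fin 2 → ℂ) (y : ℂ) (h : Base) :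
    evPt a y (toFibre h) = eval ![0, eval a (img 0), eval a (img 1), eval a (img 2), y] h := by
  rw [← aeval_eq_eval, ← AlgHom.comp_apply]
  congr 1
  refine algHom_ext fun l => ?_
  fin_cases l <;> simp [evPt, toFibre, gS]
  all_goals
    show aeval a (toPlane (X _)) = _
    simp [toPlane, aeval_eq_eval]

theorem eq_zero_of_evPt {p : Polynomial Surf} (h : ∀ a y, evPt a y p = 0) : p = 0 := by
  refine Polynomial.ext fun n => Subtype.ext ?_
  refine MvPolynomial.funext fun a => ?_
  have hp : p.map ((aeval a).comp toPlane.range.val).toRingHom = 0 := by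
    refine Polynomial.funext fun y => ?_
    rw [Polynomial.eval_map, Polynomial.eval_zero]
    exact h a y
  have h1 := congrArg (fun r => Polynomial.coeff r n) hp
  simpa [Polynomial.coeff_map, aeval_eq_eval] using h1

/-- The curve through a point of the central fibre. -/
noncomputable def curve (a : Fin 2 → ℂ) (y : ℂ) : Fin 5 → Polynomial ℂ :=
  ![Polynomial.X,
    Polynomial.C (eval a (img 0)) + Polynomial.C (3 / 2 * a 0 * y) * Polynomial.X,
    Polynomial.C (eval a (img 1)) + Polynomial.C (3 / 2 * a 1 * y) * Polynomial.X,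
    Polynomial.C (eval a (img 2)) + Polynomial.C y * Polynomial.X,
    Polynomial.C y + Polynomial.C (y ^ 2 * (9 / 4 * (a 0 * a 1) - 3 * (a 0 * a 1))) * Polynomial.X
      - Polynomial.C (y ^ 3) * Polynomial.X ^ 2]

theorem exists_point {s u v q y : ℂ} (hs : s ≠ 0) (h : s * y = u * v - q * (q ^ 2 - 1)) :
    ∃ φ : Aff →ₐ[ℂ] ℂ, ∀ l, φ (baseVal l) = ![s, u, v, q, y] l := by
  have hF : relOf s ((y * (1 + q) - u - v) / 2) (y - (y * (1 + q) - u - v) / 2)
      ((u - (y * (1 + q) - u - v) / 2 * (q - 1)) / s)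
      ((q - (y * (1 + q) - u - v) / 2 * (y - (y * (1 + q) - u - v) / 2)) / s) = 0 := by
    simp only [relOf, qOf]
    field_simp
    linear_combination (64 : ℂ) * h
  set g : Fin 5 → ℂ := ![s, (y * (1 + q) - u - v) / 2, y - (y * (1 + q) - u - v) / 2,
    (u - (y * (1 + q) - u - v) / 2 * (q - 1)) / s,
    (q - (y * (1 + q) - u - v) / 2 * (y - (y * (1 + q) - u - v) / 2)) / s] with hg
  have hFg : relOf (g 0) (g 1) (g 2) (g 3) (g 4) = 0 := hF
  refine ⟨liftA g hFg, fun l => ?_⟩
  have hv := liftA_gen g hFg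
  fin_cases l <;>
    simp only [baseVal, qOf, uOf, vOf, Fin.zero_eta, Fin.mk_one, Fin.reduceFinMk, Matrix.cons_val,
      map_add, map_sub, map_mul, map_one, hv] <;>
    simp only [hg, Matrix.cons_val] <;> field_simp <;> ring

theorem toFibre_eq_zero {h : Base} (h0 : toAff h = 0) : toFibre h = 0 := by
  refine eq_zero_of_evPt fun a y => ?_
  have hz : aeval (curve a y) h = (0 : Polynomial ℂ) := by
    refine poly_eq_zero_of_ne fun z hz => ?_
    obtain ⟨φ, hφ⟩ := exists_point (s := z) (u := (curve a y 1).eval z)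
      (v := (curve a y 2).eval z) (q := (curve a y 3).eval z) (y := (curve a y 4).eval z) hz (by
        simp [curve, img]; ring)
    have h1 := congrArg φ h0
    rw [map_zero, ← AlgHom.comp_apply, show φ.comp toAff = (Polynomial.aeval z).comp (aeval (curve a y)) by
      refine algHom_ext fun l => ?_
      simp only [AlgHom.comp_apply, toAff, aeval_X, hφ]
      fin_cases l <;> simp [curve], AlgHom.comp_apply] at h1
    simpa [Polynomial.coe_aeval_eq_eval] using h1
  have h2 := congrArg (Polynomial.aeval (0 : ℂ)) hz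
  rw [map_zero, ← AlgHom.comp_apply] at h2
  rw [evPt_toFibre, ← aeval_eq_eval]
  refine Eq.trans ?_ h2
  congr 1
  refine algHom_ext fun l => ?_
  fin_cases l <;> simp [curve]

/-- The equation of the surface. -/
noncomputable def surfPoly : Space := X 0 * X 1 - X 2 * (X 2 ^ 2 - 1)

theorem exists_two_var_dvd (h : Space) : ∃ (N : ℕ) (p : MvPolynomial (Fin 2) ℂ),
    surfPoly ∣ h * X 0 ^ N - aeval ![X 0, X 2] p := by
  induction h using MvPolynomial.induction_on with
  | C c => exact ⟨0, C c, by simp⟩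
  | add f g hf hg =>
    obtain ⟨N, p, c, hc⟩ := hf
    obtain ⟨M, r, d, hd⟩ := hg
    refine ⟨N + M, p * X 0 ^ M + r * X 0 ^ N, c * X 0 ^ M + d * X 0 ^ N, ?_⟩
    simp only [map_add, map_mul, map_pow, aeval_X, Matrix.cons_val, pow_add]
    linear_combination (X 0 : Space) ^ M * hc + (X 0 : Space) ^ N * hd
  | mul_X f k hf =>
    obtain ⟨N, p, c, hc⟩ := hf
    fin_cases k
    · exact ⟨N, p * X 0, c * X 0, by
        simp only [Fin.zero_eta, map_mul, aeval_X, Matrix.cons_val]
        linear_combination (X 0 : Space) * hc⟩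
    · refine ⟨N + 1, p * (X 1 * (X 1 ^ 2 - 1)), c * (X 0 * X 1) + aeval ![X 0, X 2] p, ?_⟩
      simp only [Fin.mk_one, map_mul, map_sub, map_pow, map_one, aeval_X, Matrix.cons_val, pow_succ]
      simp only [surfPoly] at hc ⊢
      linear_combination (X 0 * X 1 : Space) * hc
    · exact ⟨N, p * X 1, c * X 2, by
        simp only [Fin.reduceFinMk, map_mul, aeval_X, Matrix.cons_val]
        linear_combination (X 2 : Space) * hc⟩

/-- Setting `u = 0`. -/
noncomputable def atU0 : Space →ₐ[ℂ] Space := aeval ![0, X 1, X 2]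

theorem dvd_sub_atU0 (h : Space) : X 0 ∣ h - atU0 h := by
  induction h using MvPolynomial.induction_on with
  | C c => simp [atU0]
  | add p q hp hq => rw [map_add, add_sub_add_comm]; exact dvd_add hp hq
  | mul_X p k hp =>
    fin_cases k
    · simp [atU0]
    · obtain ⟨c, hc⟩ := hp
      exact ⟨c * X 1, by simp [atU0] at hc ⊢; linear_combination (X 1 : Space) * hc⟩
    · obtain ⟨c, hc⟩ := hp
      exact ⟨c * X 2, by simp [atU0] at hc ⊢; linear_combination (X 2 : Space) * hc⟩

theorem dvd_of_dvd_mul_pow : ∀ (N : ℕ) (h : Space), surfPoly ∣ h * X 0 ^ N → surfPoly ∣ h := by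
  intro N
  induction N with
  | zero => intro h hh; simpa using hh
  | succ N ih =>
    intro h hh
    obtain ⟨c, hc⟩ := hh
    have h1 := congrArg atU0 hc
    have hP : atU0 surfPoly ≠ 0 := by
      intro e
      have := congrArg (eval ![(0 : ℂ), 0, 2]) e
      simp [atU0, surfPoly] at this
      norm_num at this
    rw [map_mul, map_mul, map_pow, show atU0 (X 0) = 0 by simp [atU0], zero_pow (by omega),
      mul_zero, eq_comm, mul_eq_zero] at h1
    obtain ⟨d, hd⟩ := dvd_sub_atU0 c
    rw [h1.resolve_left hP, sub_zero] at hd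
    refine ih h ⟨d, mul_left_cancel₀ (X_ne_zero (0 : Fin 3)) ?_⟩
    rw [hd, pow_succ] at hc
    linear_combination hc

theorem dvd_of_toSurf_eq_zero {h : Space} (h0 : toSurf h = 0) : surfPoly ∣ h := by
  obtain ⟨N, p, hp⟩ := exists_two_var_dvd h
  obtain ⟨c, hc⟩ := hp
  have h1 := congrArg toSurf hc
  have hP : toSurf surfPoly = 0 := Subtype.ext (by simp [toPlane, surfPoly, img]; ring)
  rw [map_sub, map_mul, map_mul, h0, zero_mul, hP, zero_mul, zero_sub, neg_eq_zero] at h1
  rw [two_var_injective (Or.inl ⟨rfl, rfl⟩) h1, map_zero, sub_zero] at hc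
  exact dvd_of_dvd_mul_pow N h ⟨c, hc⟩

theorem toAff_surfPoly : aeval ![baseVal 1, baseVal 2, baseVal 3] surfPoly
    = gen 0 * (gen 1 + gen 2) := by
  have := surface_eq (gen 0) (gen 1) (gen 2) (gen 3) (gen 4)
  rw [rel_gen, mul_zero, sub_zero] at this
  simpa [surfPoly, baseVal] using this

/-- Splitting off the part free of `s`. -/
noncomputable def splitS : Base →ₐ[ℂ] Polynomial Space :=
  aeval ![0, Polynomial.C (X 0), Polynomial.C (X 1), Polynomial.C (X 2), Polynomial.X]

/-- Putting it back. -/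
noncomputable def joinS : Polynomial Space →ₐ[ℂ] Base :=
  Polynomial.aevalTower (aeval ![X 1, X 2, X 3]) (X 4)

theorem dvd_sub_joinS (h : Base) : X 0 ∣ h - joinS (splitS h) := by
  induction h using MvPolynomial.induction_on with
  | C c => simp [splitS, joinS]
  | add p q hp hq => rw [map_add, map_add, add_sub_add_comm]; exact dvd_add hp hq
  | mul_X p k hp =>
    obtain ⟨c, hc⟩ := hp
    fin_cases k
    · simp [splitS]
    · exact ⟨c * X 1, by simp [splitS, joinS] at hc ⊢; linear_combination (X 1 : Base) * hc⟩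
    · exact ⟨c * X 2, by simp [splitS, joinS] at hc ⊢; linear_combination (X 2 : Base) * hc⟩
    · exact ⟨c * X 3, by simp [splitS, joinS] at hc ⊢; linear_combination (X 3 : Base) * hc⟩
    · exact ⟨c * X 4, by simp [splitS, joinS] at hc ⊢; linear_combination (X 4 : Base) * hc⟩

theorem toAff_eq_s_mul {h : Base} (h0 : toFibre h = 0) : ∃ g, toAff h = gen 0 * toAff g := by
  obtain ⟨c, hc⟩ := dvd_sub_joinS h
  have hs : toAff (X 0) = gen 0 := by simp [toAff, baseVal]
  have hz : (splitS h).map (toSurf : Space →+* Surf) = 0 := by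
    rw [← h0, show toFibre h = (Polynomial.mapAlgHom toSurf) (splitS h) from ?_]
    · rfl
    rw [← AlgHom.comp_apply]
    congr 1
    refine algHom_ext fun l => ?_
    fin_cases l <;> simp [toFibre, splitS, gS]
  have hdvd : Polynomial.C surfPoly ∣ splitS h := by
    rw [Polynomial.C_dvd_iff_dvd_coeff]
    intro n
    refine dvd_of_toSurf_eq_zero ?_
    have := congrArg (fun r => Polynomial.coeff r n) hz
    simpa using this
  obtain ⟨d, hd⟩ := hdvd
  refine ⟨c + X 4 * joinS d, ?_⟩
  rw [show h = X 0 * c + joinS (Polynomial.C surfPoly * d) by rw [← hd, ← hc]; ring]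
  simp only [map_add, map_mul, hs]
  have hP : toAff (joinS (Polynomial.C surfPoly)) = gen 0 * (gen 1 + gen 2) := by
    rw [← toAff_surfPoly, joinS, Polynomial.aevalTower_C, ← AlgHom.comp_apply]
    congr 1
    refine algHom_ext fun l => ?_
    fin_cases l <;> simp [toAff]
  rw [hP, show toAff (X 4) = gen 1 + gen 2 by simp [toAff, baseVal]]
  ring

end Vale.Agent.P295.Fib
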