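import Vale.Agent.P295.Fib.Defs

/-!
The fibration becomes trivial after adjoining two variables: `Aff[t₁, t₂]` is the polynomial ring
in six variables, `s` being the first one.
-/

namespace Vale.Agent.P295.Fib

open MvPolynomial

section formulas

variable {S : Type} [CommRing S]

/-- The six new coordinates: `s, p₁, p₂, e, e₂, e₃`. -/
def fwd (k : S) (s x w a1 a3 t1 t2 : S) : Fin 6 → S :=
  let p1 := x + s * t1
  let p2 := w + s * t2
  let q' := a3 - x * t2 - w * t1 - s * t1 * t2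
  let q := qOf s x w a3
  let u' := a1 - t1 * (q - 1) + p1 * q'
  let v' := -a1 - t2 * (q + 1) + p2 * q'
  ![s, p1, p2, -(t1 + t2) - u' * v' + 3 * (p1 * p2) * q' ^ 2 + s * q' ^ 3,
    u' - 3 * k * p1 * q', v' - 3 * k * p2 * q']

/-- Recover `s, X, W, U₁, U₃, t₁, t₂` from the six coordinates. -/
def bwd (k : S) (s p1 p2 e e2 e3 : S) : Fin 7 → S :=
  let q' := p1 + p2 + s * e - p2 * (p1 * p2 + 1) * e2 - p1 * (p1 * p2 - 1) * e3
  let u' := e2 + 3 * k * p1 * q'
  let v' := e3 + 3 * k * p2 * q'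
  let sg := -e - u' * v' + 3 * (p1 * p2) * q' ^ 2 + s * q' ^ 3
  let q := p1 * p2 + s * q'
  let d := u' + v' - (p1 + p2) * q' + q * sg
  let t1 := k * (sg + d)
  let t2 := k * (sg - d)
  let x := p1 - s * t1
  let w := p2 - s * t2
  ![s, x, w, u' + t1 * (q - 1) - p1 * q', q' + x * t2 + w * t1 + s * t1 * t2, t1, t2]

variable {k : S} (hk : 2 * k = 1)
include hk

theorem bwd_rel (s p1 p2 e e2 e3 : S) :
    relOf (bwd k s p1 p2 e e2 e3 0) (bwd k s p1 p2 e e2 e3 1) (bwd k s p1 p2 e e2 e3 2)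
      (bwd k s p1 p2 e e2 e3 3) (bwd k s p1 p2 e e2 e3 4) = 0 := by
  simp only [bwd, Matrix.cons_val]
  generalize hQ : p1 + p2 + s * e - p2 * (p1 * p2 + 1) * e2 - p1 * (p1 * p2 - 1) * e3 = q'
  generalize hU : e2 + 3 * k * p1 * q' = u'
  generalize hV : e3 + 3 * k * p2 * q' = v'
  generalize hG : -e - u' * v' + 3 * (p1 * p2) * q' ^ 2 + s * q' ^ 3 = sg
  generalize hD : u' + v' - (p1 + p2) * q' + (p1 * p2 + s * q') * sg = d
  simp only [relOf, qOf]
  linear_combination (-3 * (p1 * p2) ^ 2 * q' - s * sg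
      - ((p1 - s * (k * (sg + d))) * (p1 * p2 + s * q' - 1)
          + s * (u' + k * (sg + d) * (p1 * p2 + s * q' - 1) - p1 * q'))
        * (d - (p1 * p2 + s * q') * sg)) * hk + hQ + p2 * (p1 * p2 + 1) * hU
    + p1 * (p1 * p2 - 1) * hV + s * hG
    + ((p1 - s * (k * (sg + d))) * (p1 * p2 + s * q' - 1)
          + s * (u' + k * (sg + d) * (p1 * p2 + s * q' - 1) - p1 * q')) * hD

theorem fwd_bwd (s p1 p2 e e2 e3 : S) :
    fwd k s (bwd k s p1 p2 e e2 e3 1) (bwd k s p1 p2 e e2 e3 2) (bwd k s p1 p2 e e2 e3 3)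
      (bwd k s p1 p2 e e2 e3 4) (bwd k s p1 p2 e e2 e3 5) (bwd k s p1 p2 e e2 e3 6)
      = ![s, p1, p2, e, e2, e3] := by
  simp only [bwd, Matrix.cons_val]
  generalize hQ : p1 + p2 + s * e - p2 * (p1 * p2 + 1) * e2 - p1 * (p1 * p2 - 1) * e3 = q'
  generalize hU : e2 + 3 * k * p1 * q' = u'
  generalize hV : e3 + 3 * k * p2 * q' = v'
  generalize hG : -e - u' * v' + 3 * (p1 * p2) * q' ^ 2 + s * q' ^ 3 = sg
  generalize hD : u' + v' - (p1 + p2) * q' + (p1 * p2 + s * q') * sg = d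
  generalize hT1 : k * (sg + d) = t1
  generalize hT2 : k * (sg - d) = t2
  have h1 : t1 + t2 = sg := by linear_combination -hT1 - hT2 + sg * hk
  have h2 : t1 - t2 = d := by linear_combination -hT1 + hT2 + d * hk
  have hq : q' + (p1 - s * t1) * t2 + (p2 - s * t2) * t1 + s * t1 * t2
      - (p1 - s * t1) * t2 - (p2 - s * t2) * t1 - s * t1 * t2 = q' := by ring
  have hu : u' + t1 * (p1 * p2 + s * q' - 1) - p1 * q'
      - t1 * (p1 * p2 + s * q' - 1) + p1 * q' = u' := by ring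
  have hv : -(u' + t1 * (p1 * p2 + s * q' - 1) - p1 * q') - t2 * (p1 * p2 + s * q' + 1) + p2 * q'
      = v' := by linear_combination -hD - (p1 * p2 + s * q') * h1 + h2
  have hq0 : (p1 - s * t1) * (p2 - s * t2)
      + s * (q' + (p1 - s * t1) * t2 + (p2 - s * t2) * t1 + s * t1 * t2) = p1 * p2 + s * q' := by
    ring
  simp only [fwd, qOf, sub_add_cancel, hq, hq0, hu, hv]
  rw [h1]
  have he : -sg - u' * v' + 3 * (p1 * p2) * q' ^ 2 + s * q' ^ 3 = e := by linear_combination hG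
  have he2 : u' - 3 * k * p1 * q' = e2 := by linear_combination -hU
  have he3 : v' - 3 * k * p2 * q' = e3 := by linear_combination -hV
  rw [he, he2, he3]

theorem bwd_fwd (s x w a1 a3 t1 t2 : S) (h : relOf s x w a1 a3 = 0) :
    bwd k (fwd k s x w a1 a3 t1 t2 0) (fwd k s x w a1 a3 t1 t2 1) (fwd k s x w a1 a3 t1 t2 2)
      (fwd k s x w a1 a3 t1 t2 3) (fwd k s x w a1 a3 t1 t2 4) (fwd k s x w a1 a3 t1 t2 5)
      = ![s, x, w, a1, a3, t1, t2] := by
  simp only [fwd, Matrix.cons_val]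
  generalize hQ : a3 - x * t2 - w * t1 - s * t1 * t2 = q'
  generalize hq : qOf s x w a3 = q
  generalize hU : a1 - t1 * (q - 1) + (x + s * t1) * q' = u'
  generalize hV : -a1 - t2 * (q + 1) + (w + s * t2) * q' = v'
  simp only [qOf] at hq
  simp only [relOf, qOf] at h
  have hp : (x + s * t1) * (w + s * t2) + s * q' = q := by linear_combination hq - s * hQ
  have hnew : x + s * t1 + (w + s * t2)
      + s * (-(t1 + t2) - u' * v' + 3 * ((x + s * t1) * (w + s * t2)) * q' ^ 2 + s * q' ^ 3)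
      - (w + s * t2) * ((x + s * t1) * (w + s * t2) + 1) * (u' - 3 * k * (x + s * t1) * q')
      - (x + s * t1) * ((x + s * t1) * (w + s * t2) - 1) * (v' - 3 * k * (w + s * t2) * q')
      = q' := by
    subst hU hV hQ hq
    linear_combination h + 3 * ((x + s * t1) * (w + s * t2)) ^ 2
      * (a3 - x * t2 - w * t1 - s * t1 * t2) * hk
  simp only [bwd, hnew, sub_add_cancel]
  have hsg : -(-(t1 + t2) - u' * v' + 3 * ((x + s * t1) * (w + s * t2)) * q' ^ 2 + s * q' ^ 3)
      - u' * v' + 3 * ((x + s * t1) * (w + s * t2)) * q' ^ 2 + s * q' ^ 3 = t1 + t2 := by ring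
  simp only [hsg, hp]
  have hd : u' + v' - (x + s * t1 + (w + s * t2)) * q' + q * (t1 + t2) = t1 - t2 := by
    linear_combination -hU - hV
  simp only [hd]
  have ht1 : k * (t1 + t2 + (t1 - t2)) = t1 := by linear_combination t1 * hk
  have ht2 : k * (t1 + t2 - (t1 - t2)) = t2 := by linear_combination t2 * hk
  simp only [ht1, ht2, add_sub_cancel_right]
  have ha1 : u' + t1 * (q - 1) - (x + s * t1) * q' = a1 := by linear_combination -hU
  have ha3 : q' + x * t2 + w * t1 + s * t1 * t2 = a3 := by linear_combination -hQ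
  rw [ha1, ha3]

end formulas

section equivs

/-- One half. -/
noncomputable def half {S : Type} [CommRing S] [Algebra ℂ S] : S := algebraMap ℂ S (1 / 2)

theorem two_mul_half {S : Type} [CommRing S] [Algebra ℂ S] : (2 : S) * half = 1 := by
  rw [show (2 : S) = algebraMap ℂ S 2 from (map_ofNat _ 2).symm, half, ← map_mul]
  norm_num

theorem map_half {S S' : Type} [CommRing S] [Algebra ℂ S] [CommRing S'] [Algebra ℂ S']
    (f : S →ₐ[ℂ] S') : f half = half := f.commutes _

theorem map_fwd {S S' : Type} [CommRing S] [CommRing S'] (f : S →+* S') (k s x w a1 a3 t1 t2 : S)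
    (i : Fin 6) : f (fwd k s x w a1 a3 t1 t2 i)
      = fwd (f k) (f s) (f x) (f w) (f a1) (f a3) (f t1) (f t2) i := by
  fin_cases i <;> simp [fwd, qOf, map_ofNat]

theorem map_bwd {S S' : Type} [CommRing S] [CommRing S'] (f : S →+* S') (k s p1 p2 e e2 e3 : S)
    (i : Fin 7) : f (bwd k s p1 p2 e e2 e3 i)
      = bwd (f k) (f s) (f p1) (f p2) (f e) (f e2) (f e3) i := by
  fin_cases i <;> simp [bwd, map_ofNat]

/-- `Aff[t₁, t₂]`. -/
abbrev Aff2 : Type := Polynomial (Polynomial Aff)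

/-- The seven generators of `Aff[t₁, t₂]`. -/
noncomputable def gen2 : Fin 7 → Aff2 :=
  ![Polynomial.C (Polynomial.C (gen 0)), Polynomial.C (Polynomial.C (gen 1)),
    Polynomial.C (Polynomial.C (gen 2)), Polynomial.C (Polynomial.C (gen 3)),
    Polynomial.C (Polynomial.C (gen 4)), Polynomial.C Polynomial.X, Polynomial.X]

theorem rel_gen2 : relOf (gen2 0) (gen2 1) (gen2 2) (gen2 3) (gen2 4) = 0 := by
  have h := map_relOf ((Polynomial.C).comp (Polynomial.C : Aff →+* Polynomial Aff))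
    (gen 0) (gen 1) (gen 2) (gen 3) (gen 4)
  rw [rel_gen, map_zero] at h
  simpa [gen2] using h.symm

/-- From the six coordinates into `Aff[t₁, t₂]`. -/
noncomputable def toAff2 : MvPolynomial (Fin 6) ℂ →ₐ[ℂ] Aff2 :=
  aeval (fwd half (gen2 0) (gen2 1) (gen2 2) (gen2 3) (gen2 4) (gen2 5) (gen2 6))

/-- The values of the seven generators in the six coordinates. -/
noncomputable def val7 : Fin 7 → MvPolynomial (Fin 6) ℂ :=
  bwd half (X 0) (X 1) (X 2) (X 3) (X 4) (X 5)

/-- From `Aff` into the six coordinates. -/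
noncomputable def affTo6 : Aff →ₐ[ℂ] MvPolynomial (Fin 6) ℂ :=
  liftA ![val7 0, val7 1, val7 2, val7 3, val7 4] (by
    simpa [val7] using bwd_rel two_mul_half (X 0 : MvPolynomial (Fin 6) ℂ) (X 1) (X 2) (X 3) (X 4) (X 5))

/-- From `Aff[t₁, t₂]` into the six coordinates. -/
noncomputable def ofAff2 : Aff2 →ₐ[ℂ] MvPolynomial (Fin 6) ℂ :=
  Polynomial.aevalTower (Polynomial.aevalTower affTo6 (val7 5)) (val7 6)

theorem ofAff2_gen2 (i : Fin 7) : ofAff2 (gen2 i) = val7 i := by
  fin_cases i <;> simp [ofAff2, gen2, affTo6]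

theorem vec7 (i : Fin 7) : ![gen2 0, gen2 1, gen2 2, gen2 3, gen2 4, gen2 5, gen2 6] i = gen2 i := by
  fin_cases i <;> rfl

theorem to_of : ofAff2.comp toAff2 = AlgHom.id ℂ _ := by
  refine MvPolynomial.algHom_ext fun i => ?_
  have h := congrFun (fwd_bwd two_mul_half (X 0 : MvPolynomial (Fin 6) ℂ) (X 1) (X 2) (X 3) (X 4)
    (X 5)) i
  have h0 : val7 0 = (X 0 : MvPolynomial (Fin 6) ℂ) := rfl
  simp only [AlgHom.comp_apply, toAff2, aeval_X, AlgHom.id_apply]
  rw [show ofAff2 (fwd half (gen2 0) (gen2 1) (gen2 2) (gen2 3) (gen2 4) (gen2 5) (gen2 6) i)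
      = _ from map_fwd ofAff2.toRingHom _ _ _ _ _ _ _ _ i]
  simp only [AlgHom.toRingHom_eq_coe, RingHom.coe_coe, map_half, ofAff2_gen2, h0]
  rw [show fwd half (X 0) (val7 1) (val7 2) (val7 3) (val7 4) (val7 5) (val7 6) i = _ from h]
  fin_cases i <;> rfl

theorem of_to_gen2 (i : Fin 7) : toAff2 (ofAff2 (gen2 i)) = gen2 i := by
  have h := congrFun (bwd_fwd two_mul_half (gen2 0) (gen2 1) (gen2 2) (gen2 3) (gen2 4) (gen2 5)
    (gen2 6) rel_gen2) i
  rw [ofAff2_gen2, val7, show toAff2 (bwd half (X 0) (X 1) (X 2) (X 3) (X 4) (X 5) i) = _ from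
    map_bwd toAff2.toRingHom _ _ _ _ _ _ _ i]
  simp only [AlgHom.toRingHom_eq_coe, RingHom.coe_coe, map_half, toAff2, aeval_X]
  rw [h, vec7]

theorem of_to : toAff2.comp ofAff2 = AlgHom.id ℂ _ := by
  have hA : ∀ a : Aff, toAff2 (ofAff2 (Polynomial.C (Polynomial.C a))) = Polynomial.C (Polynomial.C a) := by
    let em : Aff →ₐ[ℂ] Aff2 :=
      ((Polynomial.CAlgHom : Polynomial Aff →ₐ[Polynomial Aff] Aff2).restrictScalars ℂ).comp
        ((Polynomial.CAlgHom : Aff →ₐ[Aff] Polynomial Aff).restrictScalars ℂ)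
    have : (toAff2.comp ofAff2).comp em = em := algHom_extA fun i => by
      have h5 := of_to_gen2 (Fin.castLE (by norm_num) i)
      fin_cases i <;> simpa [em, gen2] using h5
    exact fun a => AlgHom.congr_fun this a
  have hX : toAff2 (ofAff2 (Polynomial.C Polynomial.X)) = Polynomial.C Polynomial.X := of_to_gen2 5
  have hY : toAff2 (ofAff2 Polynomial.X) = Polynomial.X := of_to_gen2 6
  refine AlgHom.ext fun p => ?_
  simp only [AlgHom.comp_apply, AlgHom.id_apply]
  induction p using Polynomial.induction_on with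
  | C b =>
    induction b using Polynomial.induction_on with
    | C a => exact hA a
    | add f g hf hg => simp only [map_add, hf, hg]
    | monomial n a _ => simp only [map_mul, map_pow, hA, hX]
  | add f g hf hg => simp only [map_add, hf, hg]
  | monomial n b ih =>
    simp only [map_mul, map_pow] at ih ⊢
    rw [pow_succ, ← mul_assoc, ih, hY]
    ring

/-- `Aff[t₁, t₂]` is a polynomial ring in six variables. -/
noncomputable def equiv6 : Aff2 ≃ₐ[ℂ] MvPolynomial (Fin 6) ℂ :=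
  AlgEquiv.ofAlgHom ofAff2 toAff2 to_of of_to

theorem equiv6_gen0 : equiv6 (Polynomial.C (Polynomial.C (gen 0))) = X 0 :=
  ofAff2_gen2 0

end equivs

end Vale.Agent.P295.Fib
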