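import Vale.Agent.P295.Fib.Base
import Vale.Agent.P295.Fib.Stable

/-!
The fibration ring is not a polynomial ring over `ℂ[s]`.
-/

namespace Vale.Agent.P295.Fib

open MvPolynomial Finset

theorem exists_pow_mul_mem (a : Aff) : ∃ N : ℕ, gen 0 ^ N * a ∈ toAff.range := by
  have hgen : ∀ l, gen 0 * gen l ∈ toAff.range := by
    have h0 : gen 0 ∈ toAff.range := ⟨X 0, by simp [toAff, baseVal]⟩
    have hY : gen 1 + gen 2 ∈ toAff.range := ⟨X 4, by simp [toAff, baseVal]⟩
    have hu : baseVal 1 ∈ toAff.range := ⟨X 1, by simp [toAff]⟩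
    have hv : baseVal 2 ∈ toAff.range := ⟨X 2, by simp [toAff]⟩
    have hq : baseVal 3 ∈ toAff.range := ⟨X 3, by simp [toAff]⟩
    have h1 : gen 1 ∈ toAff.range := by
      have : gen 1 = half * ((gen 1 + gen 2) * (1 + baseVal 3) - baseVal 1 - baseVal 2) := by
        simp only [baseVal, Matrix.cons_val, uOf, vOf]
        linear_combination (-gen 1 : Aff) * (two_mul_half (S := Aff))
      rw [this]
      exact mul_mem (toAff.range.algebraMap_mem _)
        (sub_mem (sub_mem (mul_mem hY (add_mem (one_mem _) hq)) hu) hv)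
    have h2 : gen 2 ∈ toAff.range := by
      have := sub_mem hY h1
      rwa [add_sub_cancel_left] at this
    intro l
    fin_cases l
    · exact mul_mem h0 h0
    · exact mul_mem h0 h1
    · exact mul_mem h0 h2
    · have : gen 0 * gen 3 = baseVal 1 - gen 1 * (baseVal 3 - 1) := by
        simp only [baseVal, Matrix.cons_val, uOf]; ring
      rw [show (⟨3, _⟩ : Fin 5) = 3 from rfl, this]
      exact sub_mem hu (mul_mem h1 (sub_mem hq (one_mem _)))
    · have : gen 0 * gen 4 = baseVal 3 - gen 1 * gen 2 := by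
        simp only [baseVal, Matrix.cons_val, qOf]; ring
      rw [show (⟨4, _⟩ : Fin 5) = 4 from rfl, this]
      exact sub_mem hq (mul_mem h1 h2)
  obtain ⟨p, rfl⟩ := Ideal.Quotient.mk_surjective (I := relIdeal) a
  show ∃ N, gen 0 ^ N * mkA p ∈ toAff.range
  induction p using MvPolynomial.induction_on with
  | C c => exact ⟨0, by rw [pow_zero, one_mul]; exact ⟨C c, (toAff.commutes c).trans (mkA.commutes c).symm⟩⟩
  | add p q hp hq =>
    obtain ⟨N, hN⟩ := hp
    obtain ⟨M, hM⟩ := hq
    have hs : gen 0 ∈ toAff.range := ⟨X 0, by simp [toAff, baseVal]⟩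
    refine ⟨N + M, ?_⟩
    rw [map_add, mul_add]
    refine add_mem ?_ ?_
    · rw [add_comm N M, pow_add, mul_assoc]; exact mul_mem (pow_mem hs M) hN
    · rw [pow_add, mul_assoc]; exact mul_mem (pow_mem hs N) hM
  | mul_X p l hp =>
    obtain ⟨N, hN⟩ := hp
    refine ⟨N + 1, ?_⟩
    rw [map_mul, show mkA (X l) = gen l from rfl,
      show gen 0 ^ (N + 1) * (mkA p * gen l) = gen 0 ^ N * mkA p * (gen 0 * gen l) by ring]
    exact mul_mem hN (hgen l)

theorem gen3_not_mem : gen 3 ∉ toAff.range := by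
  rintro ⟨g, hg⟩
  let h1 : Base := X 1 - C (1 / 2) * (X 4 * (1 + X 3) - X 1 - X 2) * (X 3 - 1)
  have hz : toAff (h1 - X 0 * g) = 0 := by
    rw [map_sub, map_mul, show toAff g = gen 3 from hg]
    simp only [h1, toAff, map_sub, map_mul, map_add, map_one, aeval_X, aeval_C, baseVal,
      Matrix.cons_val, uOf, vOf]
    rw [show (algebraMap ℂ Aff) (1 / 2) = half from rfl]
    linear_combination (-gen 1 * (qOf (gen 0) (gen 1) (gen 2) (gen 4) - 1) : Aff)
      * (two_mul_half (S := Aff))
  have h2 := congrArg (evPt ![1, 0] 0) (toFibre_eq_zero hz)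
  rw [evPt_toFibre, map_zero] at h2
  simp [h1, img] at h2
  norm_num at h2

/-- Reduction to the plane, `s ↦ 0`. -/
noncomputable def toPlaneA : Aff →ₐ[ℂ] Plane :=
  let q : Plane := X 0 * X 1
  let al : Plane := C (1 / 4) * (X 0 * (q + 1) + X 1 * (q - 1))
  let be : Plane := 1 + C (1 / 4) * (X 1 ^ 2 - X 0 ^ 2)
  liftA ![0, X 0, X 1, (X 0 + X 1) * al, (X 0 + X 1) * be] (by
    simp only [relOf, qOf, Matrix.cons_val, al, be, q]
    have h4 : C (1 / 4) * 4 = (1 : Plane) := by
      rw [← map_ofNat C 4, ← map_mul]; norm_num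
    linear_combination -(X 0 + X 1 : Plane) * (X 0 * X 1) ^ 2 * h4)

theorem toPlaneA_toAff (h : Base) : toPlaneA (toAff h) = toGraph (toFibre h) := by
  rw [← AlgHom.comp_apply, ← AlgHom.comp_apply]
  congr 1
  refine algHom_ext fun l => ?_
  fin_cases l <;> simp [toAff, baseVal, toPlaneA, uOf, vOf, qOf, toGraph, toFibre, gS]
  all_goals
    show _ = toPlane (X _)
    simp [toPlane, img]

theorem iterate_pderiv_zero (j : Fin 4) (p : MvPolynomial (Fin 4) ℂ) :
    ∃ n : ℕ, (pderiv j)^[n] p = 0 := by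
  induction p using MvPolynomial.induction_on' with
  | monomial d c =>
    refine ⟨d j + 1, ?_⟩
    have : ∀ (n : ℕ) (d : Fin 4 →₀ ℕ) (c : ℂ), d j < n → (pderiv j)^[n] (monomial d c) = 0 := by
      intro n
      induction n with
      | zero => intro d c h; exact absurd h (Nat.not_lt_zero _)
      | succ n ih =>
        intro d c h
        rw [Function.iterate_succ_apply, pderiv_monomial]
        by_cases h0 : d j = 0
        · simp [h0, iterate_map_zero]
        · exact ih _ _ (by simp; omega)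
    exact this _ d c (Nat.lt_succ_self _)
  | add p q hp hq =>
    obtain ⟨n, hn⟩ := hp
    obtain ⟨m, hm⟩ := hq
    refine ⟨n + m, ?_⟩
    have h1 : (pderiv j)^[n + m] p = 0 := by
      rw [add_comm, Function.iterate_add_apply, hn, iterate_map_zero]
    rw [iterate_map_add, h1, Function.iterate_add_apply, hm, iterate_map_zero, add_zero]

theorem pow_dvd_bound {p : MvPolynomial (Fin 4) ℂ} (hp : p ≠ 0) :
    ∃ B, ∀ k, X 0 ^ k ∣ p → k ≤ B := by
  refine ⟨(finSuccEquiv ℂ 3 p).natDegree, fun k hk => ?_⟩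
  obtain ⟨c, rfl⟩ := hk
  rw [map_mul, map_pow, finSuccEquiv_X_zero, mul_comm, Polynomial.natDegree_mul_X_pow]
  · omega
  · intro e
    exact hp (by rw [(map_eq_zero_iff _ (finSuccEquiv ℂ 3).injective).1 e, mul_zero])

theorem no_iso_over_base (e : MvPolynomial (Fin 4) ℂ ≃ₐ[ℂ] Aff) : e (X 0) ≠ gen 0 := by
  classical
  intro he
  have : IsDomain Aff := e.symm.toRingEquiv.toMulEquiv.isDomain (MvPolynomial (Fin 4) ℂ)
  have hX0 : gen 0 ∈ toAff.range := ⟨X 0, by simp [toAff, baseVal]⟩
  obtain ⟨i, hi⟩ : ∃ i, e (X i) ∉ toAff.range := by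
    by_contra hall
    push Not at hall
    have hT : ∀ p, e p ∈ toAff.range := fun p => by
      induction p using MvPolynomial.induction_on with
      | C c =>
        rw [show (C c : MvPolynomial (Fin 4) ℂ) = algebraMap ℂ _ c from rfl, e.commutes]
        exact toAff.range.algebraMap_mem c
      | add p q hp hq => rw [map_add]; exact add_mem hp hq
      | mul_X p l hp => rw [map_mul]; exact mul_mem hp (hall l)
    exact gen3_not_mem (by simpa using hT (e.symm (gen 3)))
  have hi0 : i ≠ 0 := by rintro rfl; exact hi (he ▸ hX0)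
  obtain ⟨j, hji, hj0⟩ : ∃ j : Fin 4, j ≠ i ∧ j ≠ 0 := by
    revert hi0; fin_cases i <;> decide
  let D : Derivation ℂ Aff Aff := Derivation.mk'
    ((e.toLinearMap.comp (pderiv j).toLinearMap).comp e.symm.toLinearMap) fun a b => by
      show e (pderiv j (e.symm (a * b))) = a * e (pderiv j (e.symm b)) + b * e (pderiv j (e.symm a))
      rw [map_mul, pderiv_mul, map_add, map_mul, map_mul, e.apply_symm_apply, e.apply_symm_apply]
      ring
  have hD : ∀ p, D (e p) = e (pderiv j p) := fun p => by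
    show e (pderiv j (e.symm (e p))) = _
    rw [e.symm_apply_apply]
  have hs : D (gen 0) = 0 := by rw [← he, hD, pderiv_X_of_ne hj0.symm, map_zero]
  have hc : D (e (X i)) = 0 := by rw [hD, pderiv_X_of_ne hji.symm, map_zero]
  have hDn : ∀ a, ∃ n, D^[n] a = 0 := by
    intro a
    obtain ⟨n, hn⟩ := iterate_pderiv_zero j (e.symm a)
    refine ⟨n, ?_⟩
    have : ∀ m p, D^[m] (e p) = e ((pderiv j)^[m] p) := fun m => by
      induction m with
      | zero => intro p; rfl
      | succ m ih => intro p; rw [Function.iterate_succ_apply, Function.iterate_succ_apply, hD, ih]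
    rw [← e.apply_symm_apply a, this, hn, map_zero]
  have hs0 : gen 0 ≠ 0 := by
    rw [← he]; exact (map_ne_zero_iff _ e.injective).2 (X_ne_zero _)
  have hDg : ∃ l, D (toAff (X l)) ≠ 0 := by
    by_contra hall
    push Not at hall
    have hall' : ∀ h, D (toAff h) = 0 := fun h => by
      induction h using MvPolynomial.induction_on with
      | C c => rw [show toAff (C c) = algebraMap ℂ Aff c from toAff.commutes c, D.map_algebraMap]
      | add p q hp hq => rw [map_add, map_add, hp, hq, add_zero]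
      | mul_X p l hp => rw [map_mul, D.leibniz, hp, hall l]; simp
    obtain ⟨M, g, hg⟩ := exists_pow_mul_mem (e (X j))
    have h1 : D (gen 0 ^ M * e (X j)) = 0 := by rw [← hg]; exact hall' g
    rw [D.leibniz, D.leibniz_pow, hs, hD, pderiv_X_self, map_one] at h1
    simp [hs0] at h1
  choose Nl hNl using fun l => exists_pow_mul_mem (D (toAff (X l)))
  let N := univ.sup Nl
  have hN : ∀ l, ∃ g, gen 0 ^ N * D (toAff (X l)) = gen 0 ^ 0 * toAff g := by
    intro l
    obtain ⟨g, hg⟩ := hNl l
    have hle : Nl l ≤ N := le_sup (mem_univ l)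
    refine ⟨X 0 ^ (N - Nl l) * g, ?_⟩
    rw [map_mul, map_pow, show toAff g = gen 0 ^ Nl l * D (toAff (X l)) from hg,
      show toAff (X 0) = gen 0 by simp [toAff, baseVal], ← mul_assoc, ← mul_assoc, ← pow_add,
      ← pow_add]
    congr 2
    omega
  let P : ℕ → Prop := fun k => ∀ l, ∃ g, gen 0 ^ N * D (toAff (X l)) = gen 0 ^ k * toAff g
  obtain ⟨l₀, hl₀⟩ := hDg
  obtain ⟨B, hB⟩ := pow_dvd_bound (p := e.symm (gen 0 ^ N * D (toAff (X l₀))))
    ((map_ne_zero_iff _ e.symm.injective).2 (mul_ne_zero (pow_ne_zero _ hs0) hl₀))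
  have hPB : ∀ k, P k → k ≤ B := fun k hk => by
    obtain ⟨g, hg⟩ := hk l₀
    refine hB k ⟨e.symm (toAff g), ?_⟩
    rw [hg, map_mul, map_pow, ← he, e.symm_apply_apply]
  set k := Nat.findGreatest P B
  have hk : P k := Nat.findGreatest_spec (P := P) (Nat.zero_le B) hN
  have hk1 : ¬ P (k + 1) := fun h => by
    have h1 := hPB _ h
    have h2 := Nat.le_findGreatest (P := P) h1 h
    omega
  have hall : ∀ t : ↥toAff.range, ∃ r : ↥toAff.range,
      gen 0 ^ N * D (t : Aff) = gen 0 ^ k * (r : Aff) := by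
    rintro ⟨_, h, rfl⟩
    show ∃ r : ↥toAff.range, gen 0 ^ N * D (toAff h) = gen 0 ^ k * (r : Aff)
    induction h using MvPolynomial.induction_on with
    | C c =>
      refine ⟨0, ?_⟩
      rw [show toAff (C c) = algebraMap ℂ Aff c from toAff.commutes c, D.map_algebraMap]
      simp
    | add p q hp hq =>
      obtain ⟨r, hr⟩ := hp
      obtain ⟨r', hr'⟩ := hq
      exact ⟨r + r', by rw [map_add, map_add, mul_add, hr, hr', AddMemClass.coe_add, mul_add]⟩
    | mul_X p l hp =>
      obtain ⟨r, hr⟩ := hp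
      obtain ⟨g, hg⟩ := hk l
      refine ⟨⟨toAff p * toAff g + toAff (X l) * (r : Aff), add_mem (mul_mem ⟨p, rfl⟩ ⟨g, rfl⟩)
        (mul_mem ⟨X l, rfl⟩ r.2)⟩, ?_⟩
      rw [map_mul, D.leibniz, smul_eq_mul, smul_eq_mul]
      linear_combination (toAff p : Aff) * hg + (toAff (X l) : Aff) * hr
  choose D2 hD2 using hall
  have hcancel : ∀ {r r' : ↥toAff.range}, gen 0 ^ k * (r : Aff) = gen 0 ^ k * (r' : Aff) → r = r' :=
    fun h => Subtype.ext (mul_left_cancel₀ (pow_ne_zero _ hs0) h)
  let D' : Derivation ℂ ↥toAff.range ↥toAff.range := Derivation.mk'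
    { toFun := D2
      map_add' := fun a b => hcancel (by
        rw [← hD2, AddMemClass.coe_add, AddMemClass.coe_add, map_add, mul_add, mul_add, hD2, hD2])
      map_smul' := fun c a => hcancel (by
        rw [RingHom.id_apply, ← hD2, Subalgebra.coe_smul, Subalgebra.coe_smul, D.map_smul,
          mul_smul_comm, mul_smul_comm, hD2]) }
    fun a b => hcancel (by
      show _ * ((D2 (a * b) : ↥toAff.range) : Aff) = _
      rw [← hD2]
      show gen 0 ^ N * D ((a : Aff) * (b : Aff))
        = gen 0 ^ k * ((a : Aff) * (D2 b : Aff) + (b : Aff) * (D2 a : Aff))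
      rw [D.leibniz, smul_eq_mul, smul_eq_mul]
      linear_combination (a : Aff) * hD2 b + (b : Aff) * hD2 a)
  have hD' : ∀ t : ↥toAff.range, gen 0 ^ k * (D' t : Aff) = gen 0 ^ N * D (t : Aff) :=
    fun t => (hD2 t).symm
  have hD'n : ∀ t, ∃ n, D'^[n] t = 0 := by
    intro t
    obtain ⟨n, hn⟩ := hDn (t : Aff)
    refine ⟨n, ?_⟩
    have hm : ∀ m, gen 0 ^ (k * m) * ((D'^[m] t : ↥toAff.range) : Aff)
        = gen 0 ^ (N * m) * D^[m] (t : Aff) := by
      intro m
      induction m with
      | zero => simp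
      | succ m ih =>
        simp only [Function.iterate_succ_apply']
        have h1 := congrArg D ih
        rw [D.leibniz, D.leibniz, D.leibniz_pow, D.leibniz_pow, hs] at h1
        simp only [smul_eq_mul, mul_zero, smul_zero, add_zero] at h1
        rw [mul_add k m 1, pow_add, mul_one, mul_assoc, hD']
        calc gen 0 ^ (k * m) * (gen 0 ^ N * D ((D'^[m] t : ↥toAff.range) : Aff))
            = gen 0 ^ N * (gen 0 ^ (k * m) * D ((D'^[m] t : ↥toAff.range) : Aff)) := by ring
          _ = _ := by rw [h1]; ring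
    have h1 := hm n
    rw [hn, mul_zero] at h1
    exact Subtype.ext ((mul_eq_zero.1 h1).resolve_left (pow_ne_zero _ hs0))
  let rep : ↥toAff.range → Base := fun t => t.2.choose
  have hrep : ∀ t : ↥toAff.range, toAff (rep t) = (t : Aff) := fun t => t.2.choose_spec
  have hwd : ∀ {g g' : Base}, toAff g = toAff g' → toFibre g = toFibre g' := fun {g g'} h => by
    refine sub_eq_zero.1 ((map_sub toFibre g g').symm.trans (toFibre_eq_zero ?_))
    rw [map_sub, h, sub_self]
  let red : ↥toAff.range →ₐ[ℂ] Polynomial Surf :=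
    { toFun := fun t => toFibre (rep t)
      map_one' := by rw [← map_one toFibre]; exact hwd (by rw [hrep, map_one]; rfl)
      map_mul' := fun a b => by rw [← map_mul]; exact hwd (by rw [hrep, map_mul, hrep, hrep]; rfl)
      map_zero' := by rw [← map_zero toFibre]; exact hwd (by rw [hrep, map_zero]; rfl)
      map_add' := fun a b => by rw [← map_add]; exact hwd (by rw [hrep, map_add, hrep, hrep]; rfl)
      commutes' := fun c => by
        rw [← toFibre.commutes c]; exact hwd (by rw [hrep, toAff.commutes]; rfl) }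
  have hred : ∀ g, red ⟨toAff g, g, rfl⟩ = toFibre g := fun g => hwd (hrep _)
  have hsurj : Function.Surjective red := by
    intro p
    obtain ⟨g, hg⟩ : ∃ g, toFibre g = p := by
      induction p using Polynomial.induction_on' with
      | add p q hp hq =>
        obtain ⟨g, rfl⟩ := hp
        obtain ⟨g', rfl⟩ := hq
        exact ⟨g + g', map_add _ _ _⟩
      | monomial n r =>
        obtain ⟨r, rfl⟩ := toSurf_surjective r
        refine ⟨aeval ![X 1, X 2, X 3] r * X 4 ^ n, ?_⟩
        rw [map_mul, map_pow, ← AlgHom.comp_apply,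
          show toFibre.comp (aeval ![X 1, X 2, X 3])
              = (((Polynomial.CAlgHom : Surf →ₐ[Surf] Polynomial Surf).restrictScalars ℂ).comp
                toSurf) from
            algHom_ext fun l => by fin_cases l <;> simp [toFibre, gS],
          ← Polynomial.C_mul_X_pow_eq_monomial]
        simp [toFibre]
    exact ⟨⟨toAff g, g, rfl⟩, by rw [hred, hg]⟩
  have hdiv : ∀ t, red t = 0 → ∃ g, (t : Aff) = gen 0 * toAff g := fun t ht => by
    obtain ⟨g, hg⟩ := toAff_eq_s_mul (h := rep t) ht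
    exact ⟨g, by rw [← hrep t, hg]⟩
  let s' : ↥toAff.range := ⟨gen 0, hX0⟩
  have hs' : red s' = 0 := by
    have : s' = ⟨toAff (X 0), X 0, rfl⟩ := Subtype.ext (by simp [s', toAff, baseVal])
    rw [this, hred]
    simp [toFibre]
  have hDs : D' s' = 0 := hcancel (by rw [hD', hs]; simp)
  have hker : ∀ t, red t = 0 → red (D' t) = 0 := fun t ht => by
    obtain ⟨g, hg⟩ := hdiv t ht
    have : t = s' * ⟨toAff g, g, rfl⟩ := Subtype.ext hg
    rw [this, D'.leibniz, hDs]
    simp [hs']
  let Δ := descend (S := ↥toAff.range) (T := Polynomial Surf) D' red hsurj hker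
  have hne : ∃ p, Δ p ≠ 0 := by
    by_contra hall0
    push Not at hall0
    refine hk1 fun l => ?_
    obtain ⟨g, hg⟩ := hdiv (D' ⟨toAff (X l), X l, rfl⟩) (by
      rw [← descend_apply (S := ↥toAff.range) (T := Polynomial Surf) D' red hsurj hker]
      exact hall0 _)
    refine ⟨g, ?_⟩
    have h1 := hD' ⟨toAff (X l), X l, rfl⟩
    rw [hg] at h1
    rw [← h1, pow_succ]
    ring
  obtain ⟨M, hM⟩ := exists_pow_mul_mem (e (X i))
  have hex : ∃ m, gen 0 ^ m * e (X i) ∈ toAff.range := ⟨M, hM⟩
  have hm0 : Nat.find hex ≠ 0 := fun h0 => hi (by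
    have := Nat.find_spec hex
    rwa [h0, pow_zero, one_mul] at this)
  obtain ⟨m, hm⟩ := Nat.exists_eq_succ_of_ne_zero hm0
  let f : ↥toAff.range := ⟨gen 0 ^ (m + 1) * e (X i), by
    have := Nat.find_spec hex; rwa [hm] at this⟩
  have hf : red f ≠ 0 := fun h0 => by
    obtain ⟨g, hg⟩ := hdiv f h0
    refine Nat.find_min hex (show m < Nat.find hex by omega) ⟨g, ?_⟩
    refine mul_left_cancel₀ hs0 ?_
    show gen 0 * toAff g = gen 0 * (gen 0 ^ m * e (X i))
    rw [← hg]
    show gen 0 ^ (m + 1) * e (X i) = _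
    ring
  have hDf : Δ (red f) = 0 := by
    rw [descend_apply (S := ↥toAff.range) (T := Polynomial Surf) D' red hsurj hker]
    have : D' f = 0 := hcancel (by
      rw [hD']
      show gen 0 ^ N * D (gen 0 ^ (m + 1) * e (X i)) = _
      rw [D.leibniz, D.leibniz_pow, hs, hc]
      simp)
    rw [this, map_zero]
  have hgr : toGraph (red f) = 0 := by
    show toGraph (toFibre (rep f)) = 0
    rw [← toPlaneA_toAff, hrep]
    show toPlaneA (gen 0 ^ (m + 1) * e (X i)) = 0
    rw [map_mul, map_pow, show toPlaneA (gen 0) = 0 by simp [toPlaneA], zero_pow (by omega), zero_mul]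
  exact hf (poly_no_kernel Δ
    (descend_isLN (S := ↥toAff.range) (T := Polynomial Surf) D' red hsurj hker hD'n) hne hDf hgr)

end Vale.Agent.P295.Fib
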