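import Vale.Agent.P295.Quadratic
import Vale.Agent.P295.Fib.Nontrivial

/-!
From the nontrivial fibration to a stable coordinate that is not a coordinate.
-/

namespace Vale.Agent.P295.Fib

open MvPolynomial

/-- Adjoining one variable to polynomials in `n` variables. -/
noncomputable def addVar (n : ℕ) :
    Polynomial (MvPolynomial (Fin n) ℂ) ≃ₐ[ℂ] MvPolynomial (Fin (n + 1)) ℂ :=
  (finSuccEquiv ℂ n).symm

theorem addVar_C (n : ℕ) (f : MvPolynomial (Fin n) ℂ) :
    addVar n (Polynomial.C f) = rename Fin.succ f := by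
  apply (finSuccEquiv ℂ n).injective
  rw [addVar, AlgEquiv.apply_symm_apply]
  induction f using MvPolynomial.induction_on with
  | C c => simp [finSuccEquiv_apply]
  | add p q hp hq => simp [hp, hq]
  | mul_X p i hp => simp [hp, finSuccEquiv_X_succ]

theorem addVar_X (n : ℕ) : addVar n Polynomial.X = X 0 := by
  apply (finSuccEquiv ℂ n).injective
  rw [addVar, AlgEquiv.apply_symm_apply, finSuccEquiv_X_zero]

theorem isCoord_of_equiv {σ τ : Type} (e : MvPolynomial σ ℂ ≃ₐ[ℂ] MvPolynomial τ ℂ) (q : τ ≃ σ)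
    {f : MvPolynomial σ ℂ} {i : τ} (h : e f = X i) : IsCoord f :=
  ⟨e.trans (renameEquiv ℂ q), q i, by simp [h]⟩

theorem isStableCoord_one {n : ℕ} {f : MvPolynomial (Fin n) ℂ}
    (E : Polynomial (MvPolynomial (Fin n) ℂ) ≃ₐ[ℂ] MvPolynomial (Fin (n + 1)) ℂ) {i : Fin (n + 1)}
    (h : E (Polynomial.C f) = X i) : IsStableCoord f := by
  refine ⟨1, one_pos, ?_⟩
  let q : Fin n ⊕ Fin 1 ≃ Fin (n + 1) :=
    ((finSuccEquiv' (0 : Fin (n + 1))).trans
      ((Equiv.optionEquivSumPUnit _).trans (Equiv.sumCongr (Equiv.refl _) (finOneEquiv.symm)))).symm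
  refine isCoord_of_equiv (((renameEquiv ℂ q).trans (addVar n).symm).trans E) q.symm (i := i) ?_
  rw [← h]
  simp only [AlgEquiv.trans_apply, renameEquiv_apply, rename_rename]
  congr 1
  rw [AlgEquiv.symm_apply_eq, addVar_C]
  congr 2

theorem isStableCoord_two {n : ℕ} {f : MvPolynomial (Fin n) ℂ}
    (E : Polynomial (Polynomial (MvPolynomial (Fin n) ℂ)) ≃ₐ[ℂ] MvPolynomial (Fin (n + 2)) ℂ)
    {i : Fin (n + 2)} (h : E (Polynomial.C (Polynomial.C f)) = X i) : IsStableCoord f := by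
  refine ⟨2, two_pos, ?_⟩
  let q : Fin n ⊕ Fin 2 ≃ Fin (n + 2) :=
    (Equiv.sumComm _ _).trans (finSumFinEquiv.trans (finCongr (Nat.add_comm 2 n)))
  refine isCoord_of_equiv
    ((((renameEquiv ℂ q).trans (addVar (n + 1)).symm).trans
      (Polynomial.mapAlgEquiv (addVar n).symm)).trans E) q.symm (i := i) ?_
  rw [← h]
  simp only [AlgEquiv.trans_apply, renameEquiv_apply, rename_rename]
  congr 1
  have h1 : rename (q ∘ Sum.inl) f = addVar (n + 1) (Polynomial.C (addVar n (Polynomial.C f))) := by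
    rw [addVar_C, addVar_C, rename_rename]
    congr 2
    funext j
    apply Fin.ext
    simp [q]
  rw [h1, AlgEquiv.symm_apply_apply]
  simp

theorem exists_of_cylinder {n : ℕ} {B : Type} [CommRing B] [Algebra ℂ B]
    (e : Polynomial B ≃ₐ[ℂ] MvPolynomial (Fin (n + 1)) ℂ)
    (hB : ¬ Nonempty (B ≃ₐ[ℂ] MvPolynomial (Fin n) ℂ)) :
    ∃ f : MvPolynomial (Fin (n + 1)) ℂ, IsStableCoord f ∧ ¬ IsCoord f := by
  refine ⟨e Polynomial.X, ?_, fun h => hB (cancel_of_coord e h)⟩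
  let E : Polynomial (MvPolynomial (Fin (n + 1)) ℂ) ≃ₐ[ℂ] MvPolynomial (Fin (n + 2)) ℂ :=
    (((Polynomial.mapAlgEquiv e.symm).trans
      ((Polynomial.Bivariate.swap (R := B)).restrictScalars ℂ)).trans
        (Polynomial.mapAlgEquiv e)).trans (addVar (n + 1))
  refine isStableCoord_one E (i := 0) ?_
  simp [E, addVar_X, Polynomial.Bivariate.swap_apply]

theorem exists_stable_not_coord :
    ∃ (n : ℕ) (f : MvPolynomial (Fin n) ℂ), IsStableCoord f ∧ ¬ IsCoord f := by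
  by_cases h4 : Nonempty (Aff ≃ₐ[ℂ] MvPolynomial (Fin 4) ℂ)
  · obtain ⟨e⟩ := h4
    refine ⟨4, e (gen 0), ?_, ?_⟩
    · let E : Polynomial (Polynomial (MvPolynomial (Fin 4) ℂ)) ≃ₐ[ℂ] MvPolynomial (Fin 6) ℂ :=
        (Polynomial.mapAlgEquiv (Polynomial.mapAlgEquiv e.symm)).trans equiv6
      refine isStableCoord_two (n := 4) E (i := 0) ?_
      simp [E, equiv6_gen0]
    · rintro ⟨a, i, ha⟩
      refine no_iso_over_base ((renameEquiv ℂ (Equiv.swap 0 i)).trans (a.symm.trans e.symm)) ?_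
      simp [← ha]
  · by_cases h5 : Nonempty (Polynomial Aff ≃ₐ[ℂ] MvPolynomial (Fin 5) ℂ)
    · obtain ⟨e⟩ := h5
      exact ⟨5, exists_of_cylinder e h4⟩
    · exact ⟨6, exists_of_cylinder equiv6 h5⟩

end Vale.Agent.P295.Fib
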