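import Mathlib

/-!
The threefold fibration over the affine line used against the stable coordinate conjecture.

`Aff` is the hypersurface ring `ℂ[s, X, W, U₁, U₃] / (relation)`; every fibre of `s` is an affine
three-space.
-/

namespace Vale.Agent.P295.Fib

open MvPolynomial

/-- The polynomial ring in `s, X, W, U₁, U₃`. -/
abbrev Free5 : Type := MvPolynomial (Fin 5) ℂ

section formulas

variable {S : Type} [CommRing S]

/-- The function `q` in terms of the generators. -/
def qOf (s x w a3 : S) : S := x * w + s * a3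

/-- The function `u` in terms of the generators. -/
def uOf (s x w a1 a3 : S) : S := x * (qOf s x w a3 - 1) + s * a1

/-- The function `v` in terms of the generators. -/
def vOf (s x w a1 a3 : S) : S := w * (qOf s x w a3 + 1) - s * a1

/-- The defining relation. -/
def relOf (s x w a1 a3 : S) : S :=
  x + w - a1 * (w * (qOf s x w a3 + 1) - x * (qOf s x w a3 - 1) - s * a1)
    + (qOf s x w a3 ^ 2 - 1) * a3

theorem map_relOf {S' : Type} [CommRing S'] (f : S →+* S') (s x w a1 a3 : S) :
    f (relOf s x w a1 a3) = relOf (f s) (f x) (f w) (f a1) (f a3) := by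
  simp [relOf, qOf, map_add, map_mul, map_sub]

/-- `u v - q (q² - 1)` is `s (X + W)` modulo the relation. -/
theorem surface_eq (s x w a1 a3 : S) :
    uOf s x w a1 a3 * vOf s x w a1 a3 - qOf s x w a3 * (qOf s x w a3 ^ 2 - 1)
      = s * (x + w) - s * relOf s x w a1 a3 := by
  simp only [uOf, vOf, relOf, qOf]
  ring

end formulas

/-- The relation as an element of the polynomial ring. -/
noncomputable def relPoly : Free5 := relOf (X 0) (X 1) (X 2) (X 3) (X 4)

/-- The ideal of the relation. -/
noncomputable def relIdeal : Ideal Free5 := Ideal.span {relPoly}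

/-- The fibration ring. -/
def Aff : Type := Free5 ⧸ relIdeal

noncomputable instance : CommRing Aff := inferInstanceAs (CommRing (Free5 ⧸ relIdeal))

noncomputable instance : Algebra ℂ Aff := inferInstanceAs (Algebra ℂ (Free5 ⧸ relIdeal))

/-- The quotient map. -/
noncomputable def mkA : Free5 →ₐ[ℂ] Aff := Ideal.Quotient.mkₐ ℂ relIdeal

/-- The five generators of `Aff`. -/
noncomputable def gen (i : Fin 5) : Aff := mkA (X i)

theorem rel_gen : relOf (gen 0) (gen 1) (gen 2) (gen 3) (gen 4) = (0 : Aff) := by
  have h : mkA relPoly = 0 :=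
    (Ideal.Quotient.eq_zero_iff_mem (I := relIdeal)).2 (Ideal.mem_span_singleton_self _)
  have h2 := map_relOf mkA.toRingHom (X 0) (X 1) (X 2) (X 3) (X 4)
  exact h2.symm.trans h

/-- Homomorphisms out of `Aff` from values on the generators satisfying the relation. -/
noncomputable def liftA {S : Type} [CommRing S] [Algebra ℂ S] (g : Fin 5 → S)
    (h : relOf (g 0) (g 1) (g 2) (g 3) (g 4) = 0) : Aff →ₐ[ℂ] S :=
  Ideal.Quotient.liftₐ relIdeal (aeval g) fun a ha => by
    obtain ⟨c, rfl⟩ := Ideal.mem_span_singleton.1 ha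
    rw [map_mul]
    have : aeval g relPoly = 0 := by
      have := map_relOf (aeval g).toRingHom (X 0 : Free5) (X 1) (X 2) (X 3) (X 4)
      simpa [relPoly, h] using this
    rw [this, zero_mul]

@[simp] theorem liftA_gen {S : Type} [CommRing S] [Algebra ℂ S] (g : Fin 5 → S)
    (h : relOf (g 0) (g 1) (g 2) (g 3) (g 4) = 0) (i : Fin 5) : liftA g h (gen i) = g i := by
  show (Ideal.Quotient.lift _ _ _) (Ideal.Quotient.mk _ (X i)) = g i
  exact (Ideal.Quotient.lift_mk _ _ _).trans (aeval_X g i)

theorem algHom_extA {S : Type} [CommRing S] [Algebra ℂ S] {f g : Aff →ₐ[ℂ] S}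
    (h : ∀ i, f (gen i) = g (gen i)) : f = g :=
  by
    refine AlgHom.ext fun a => ?_
    obtain ⟨b, rfl⟩ := Ideal.Quotient.mk_surjective (I := relIdeal) a
    exact AlgHom.congr_fun (MvPolynomial.algHom_ext (f := f.comp mkA) (g := g.comp mkA) h) b

end Vale.Agent.P295.Fib
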