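import Vale.Agent.P295.Fib.Lnd

/-!
The surface `u v = q (q² - 1)` inside the plane, its grading, and leading derivations.
-/

namespace Vale.Agent.P295.Fib

open MvPolynomial Finset

/-- Polynomials in the plane coordinates `x, y`. -/
abbrev Plane : Type := MvPolynomial (Fin 2) ℂ

/-- Polynomials in `u, v, q`. -/
abbrev Space : Type := MvPolynomial (Fin 3) ℂ

/-- Weights `1, -1` on the plane. -/
def wPlane : Fin 2 → ℤ := ![1, -1]

/-- Weights `1, -1, 0` on space. -/
def wSpace : Fin 3 → ℤ := ![1, -1, 0]

/-- The open immersion of the plane into the surface, on functions. -/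
noncomputable def img : Fin 3 → Plane :=
  ![X 0 * (X 0 * X 1 - 1), X 1 * (X 0 * X 1 + 1), X 0 * X 1]

/-- Pullback of functions to the plane. -/
noncomputable def toPlane : Space →ₐ[ℂ] Plane := aeval img

/-- The coordinate ring of the surface, as a subring of the polynomial ring of the plane. -/
abbrev Surf : Type := ↥(toPlane.range)

/-- The quotient map onto the coordinate ring of the surface. -/
noncomputable def toSurf : Space →ₐ[ℂ] Surf := toPlane.rangeRestrict

theorem toSurf_surjective : Function.Surjective toSurf := toPlane.rangeRestrict_surjective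

@[simp] theorem coe_toSurf (h : Space) : ((toSurf h : Surf) : Plane) = toPlane h := rfl

/-- The weight component in the plane. -/
noncomputable def comp (n : ℤ) : Plane →ₗ[ℂ] Plane := weightedHomogeneousComponent wPlane n

/-- The weight component in space. -/
noncomputable def comp3 (n : ℤ) : Space →ₗ[ℂ] Space := weightedHomogeneousComponent wSpace n

theorem isHom_img (i : Fin 3) : IsWeightedHomogeneous wPlane (img i) (wSpace i) := by
  have hX := fun j => isWeightedHomogeneous_X ℂ wPlane j
  have hq : IsWeightedHomogeneous wPlane (X 0 * X 1 : Plane) 0 := by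
    simpa [wPlane] using (hX 0).mul (hX 1)
  have h1 : IsWeightedHomogeneous wPlane (1 : Plane) 0 := isWeightedHomogeneous_one ℂ wPlane
  fin_cases i
  · simpa [img, wSpace, wPlane] using (hX 0).mul (hq.sub h1)
  · simpa [img, wSpace, wPlane] using (hX 1).mul (hq.add h1)
  · simpa [img, wSpace] using hq

theorem isHom_toPlane {h : Space} {n : ℤ} (hh : IsWeightedHomogeneous wSpace h n) :
    IsWeightedHomogeneous wPlane (toPlane h) n := by
  classical
  rw [h.as_sum, map_sum]
  refine IsWeightedHomogeneous.sum _ _ _ fun d hd => ?_
  have hw := hh (mem_support_iff.1 hd)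
  rw [toPlane, aeval_monomial, MvPolynomial.algebraMap_eq, Finsupp.prod]
  refine IsWeightedHomogeneous.C_mul ?_ _
  have := IsWeightedHomogeneous.prod (w := wPlane) d.support (fun i => img i ^ d i)
    (fun i => d i • wSpace i) (fun i _ => (isHom_img i).pow (d i))
  rwa [← hw, Finsupp.weight_apply, Finsupp.sum]

/-- The weights occurring in a polynomial in `u, v, q`. -/
noncomputable def wts (h : Space) : Finset ℤ := h.support.image (Finsupp.weight wSpace)

theorem sum_comp3 (h : Space) : ∑ n ∈ wts h, comp3 n h = h := by
  classical
  ext d
  simp only [coeff_sum, comp3, coeff_weightedHomogeneousComponent, Finset.sum_ite_eq]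
  split_ifs with hm
  · rfl
  · exact (notMem_support_iff.1 fun hd => hm (mem_image_of_mem _ hd)).symm

theorem comp_toPlane (n : ℤ) (h : Space) : comp n (toPlane h) = toPlane (comp3 n h) := by
  classical
  have key : ∀ m, comp n (toPlane (comp3 m h)) = if n = m then toPlane (comp3 m h) else 0 := by
    intro m
    exact weightedHomogeneousComponent_of_mem
      (isHom_toPlane (weightedHomogeneousComponent_isWeightedHomogeneous m h))
  conv_lhs => rw [← sum_comp3 h, map_sum, map_sum]
  simp only [key, Finset.sum_ite_eq]
  split_ifs with hm
  · rfl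
  · have : comp3 n h = 0 := by
      ext d
      simp only [comp3, coeff_weightedHomogeneousComponent, coeff_zero, ite_eq_right_iff]
      intro hd
      exact notMem_support_iff.1 fun hs => hm (hd ▸ mem_image_of_mem _ hs)
    rw [this, map_zero]

theorem comp_mul_left {A B : Plane} {n m : ℤ} (hA : IsWeightedHomogeneous wPlane A n) :
    comp (n + m) (A * B) = A * comp m B := by
  classical
  have hB := sum_weightedHomogeneousComponent wPlane B
  conv_lhs => rw [← finsum_weightedHomogeneousComponent wPlane B]
  rw [finsum_eq_sum _ (weightedHomogeneousComponent_finsupp B), Finset.mul_sum, map_sum]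
  have key : ∀ j, comp (n + m) (A * weightedHomogeneousComponent wPlane j B)
      = if m = j then A * weightedHomogeneousComponent wPlane j B else 0 := by
    intro j
    have := weightedHomogeneousComponent_of_mem (m := n + m)
      (hA.mul (weightedHomogeneousComponent_isWeightedHomogeneous j B))
    simpa [comp, add_right_inj] using this
  simp only [key, Finset.sum_ite_eq]
  split_ifs with hm
  · rfl
  · have h0 : comp m B = 0 := by
      by_contra h
      exact hm ((Set.Finite.mem_toFinset _).2 h)
    rw [h0, mul_zero]

/-- All weights are at most `d`. -/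
def LeW (p : Plane) (d : ℤ) : Prop := ∀ m, d < m → comp m p = 0

/-- The component of an element of the surface ring. -/
noncomputable def compS (n : ℤ) (r : Surf) : Surf :=
  ⟨comp n (r : Plane), by
    obtain ⟨h, hh⟩ := r.2
    exact ⟨comp3 n h, by rw [← hh]; exact (comp_toPlane n h).symm⟩⟩

theorem compS_toSurf (n : ℤ) (h : Space) : compS n (toSurf h) = toSurf (comp3 n h) :=
  Subtype.ext (comp_toPlane n h)

theorem compS_add (n : ℤ) (a b : Surf) : compS n (a + b) = compS n a + compS n b :=
  Subtype.ext (map_add (comp n) (a : Plane) (b : Plane))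

theorem compS_zero (n : ℤ) : compS n 0 = 0 := Subtype.ext (map_zero (comp n))

/-- The chain rule. -/
theorem deriv_toSurf (D : Derivation ℂ Surf Surf) (h : Space) :
    D (toSurf h) = ∑ i, toSurf (pderiv i h) * D (toSurf (X i)) := by
  classical
  induction h using MvPolynomial.induction_on with
  | C c => rw [show toSurf (C c) = algebraMap ℂ Surf c from toSurf.commutes c]; simp
  | add p q hp hq => simp [hp, hq, add_mul, sum_add_distrib]
  | mul_X p n hp =>
    rw [map_mul, D.leibniz, hp, smul_eq_mul, smul_eq_mul, mul_sum]
    have hi : ∀ i, toSurf (pderiv i (p * X n)) * D (toSurf (X i))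
        = toSurf (X n) * (toSurf (pderiv i p) * D (toSurf (X i)))
          + (if i = n then toSurf p * D (toSurf (X i)) else 0) := by
      intro i
      rw [pderiv_mul, map_add, map_mul, map_mul, pderiv_X]
      by_cases h : i = n
      · subst h
        rw [Pi.single_eq_same, map_one, if_pos rfl]
        ring
      · rw [Pi.single_eq_of_ne (Ne.symm h), map_zero, if_neg h]
        ring
    rw [sum_congr rfl fun i _ => hi i, sum_add_distrib, sum_ite_eq' univ n, if_pos (mem_univ n)]
    ring

theorem toSurf_eq_sum_le {h : Space} {d : ℤ} (hd : LeW (toPlane h) d) :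
    toSurf h = ∑ n ∈ (wts h).filter (· ≤ d), toSurf (comp3 n h) := by
  classical
  conv_lhs => rw [← sum_comp3 h, map_sum]
  refine (Finset.sum_subset (Finset.filter_subset _ _) fun n hn hn' => ?_).symm
  simp only [Finset.mem_filter, hn, true_and, not_le] at hn'
  exact Subtype.ext (by rw [coe_toSurf, ← comp_toPlane]; exact hd n hn')

end Vale.Agent.P295.Fib
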