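import Vale.Agent.P295.Fib.Grading

/-!
The leading part of a derivation of the surface ring for the torus grading.
-/

namespace Vale.Agent.P295.Fib

open MvPolynomial Finset

variable (D : Derivation ℂ Surf Surf)

/-- The generators of the surface ring. -/
noncomputable def gS (i : Fin 3) : Surf := toSurf (X i)

/-- The leading parts of the images of the generators, for a given shift `k`. -/
noncomputable def lead (k : ℤ) (i : Fin 3) : Surf := compS (wSpace i + k) (D (gS i))

/-- The candidate leading derivation on representatives. -/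
noncomputable def leadFun (k : ℤ) (h : Space) : Surf :=
  ∑ i, toSurf (pderiv i h) * lead D k i

/-- Weights of the images of the generators are raised by at most `k`. -/
def Bound (k : ℤ) : Prop := ∀ i, LeW (D (gS i) : Plane) (wSpace i + k)

theorem isHom_toPlane_pderiv {h : Space} {n : ℤ} (hh : IsWeightedHomogeneous wSpace h n)
    (i : Fin 3) : IsWeightedHomogeneous wPlane (toPlane (pderiv i h)) (n - wSpace i) := by
  refine isHom_toPlane fun d hd => ?_
  rw [coeff_pderiv] at hd
  have := hh (left_ne_zero_of_mul hd)
  rw [map_add, Finsupp.weight_single, one_smul] at this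
  rw [← this]; ring

theorem comp_deriv_hom {k : ℤ} {h : Space} {n : ℤ} (hh : IsWeightedHomogeneous wSpace h n)
    (m : ℤ) : comp m (D (toSurf h) : Plane)
      = ∑ i, toPlane (pderiv i h) * comp (wSpace i + k + (m - (n + k))) (D (gS i) : Plane) := by
  rw [deriv_toSurf, AddSubmonoidClass.coe_finset_sum, map_sum]
  refine sum_congr rfl fun i _ => ?_
  rw [MulMemClass.coe_mul, coe_toSurf, ← comp_mul_left (isHom_toPlane_pderiv hh i)]
  congr 2
  ring

theorem leW_deriv_hom {k : ℤ} (hk : Bound D k) {h : Space} {n : ℤ}
    (hh : IsWeightedHomogeneous wSpace h n) : LeW (D (toSurf h) : Plane) (n + k) := by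
  intro m hm
  rw [comp_deriv_hom D (k := k) hh]
  refine sum_eq_zero fun i _ => ?_
  rw [hk i _ (by omega), mul_zero]

theorem leadFun_hom {k : ℤ} {h : Space} {n : ℤ} (hh : IsWeightedHomogeneous wSpace h n) :
    leadFun D k h = compS (n + k) (D (toSurf h)) := by
  refine Subtype.ext ?_
  show _ = comp (n + k) (D (toSurf h) : Plane)
  rw [comp_deriv_hom D (k := k) hh, leadFun, AddSubmonoidClass.coe_finset_sum]
  refine sum_congr rfl fun i _ => ?_
  simp [lead, compS]

theorem leadFun_add (k : ℤ) (a b : Space) : leadFun D k (a + b) = leadFun D k a + leadFun D k b := by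
  simp [leadFun, add_mul, sum_add_distrib]

theorem leadFun_sum (k : ℤ) {ι : Type} (s : Finset ι) (f : ι → Space) :
    leadFun D k (∑ j ∈ s, f j) = ∑ j ∈ s, leadFun D k (f j) :=
  map_sum (⟨⟨leadFun D k, by simp [leadFun]⟩, leadFun_add D k⟩ : Space →+ Surf) f s

theorem comp3_hom (n : ℤ) (h : Space) : IsWeightedHomogeneous wSpace (comp3 n h) n :=
  weightedHomogeneousComponent_isWeightedHomogeneous n h

theorem leadFun_eq_zero (k : ℤ) {h : Space} (h0 : toSurf h = 0) : leadFun D k h = 0 := by
  rw [← sum_comp3 h, leadFun_sum]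
  refine sum_eq_zero fun n _ => ?_
  rw [leadFun_hom D (comp3_hom n h), ← compS_toSurf, h0, compS_zero, map_zero, compS_zero]

theorem leadFun_congr (k : ℤ) {a b : Space} (h : toSurf a = toSurf b) :
    leadFun D k a = leadFun D k b := by
  have h1 := leadFun_eq_zero D k (h := a - b) (by rw [map_sub, h, sub_self])
  have h2 := leadFun_add D k (a - b) b
  rwa [sub_add_cancel, h1, zero_add] at h2

/-- A preimage in the polynomial ring. -/
noncomputable def repS (r : Surf) : Space := Function.surjInv toSurf_surjective r

theorem toSurf_repS (r : Surf) : toSurf (repS r) = r := Function.surjInv_eq toSurf_surjective r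

/-- The leading derivation. -/
noncomputable def leadDer (k : ℤ) : Derivation ℂ Surf Surf :=
  Derivation.mk'
    { toFun := fun r => leadFun D k (repS r)
      map_add' := fun a b => by
        rw [← leadFun_add]
        exact leadFun_congr D k (by simp [toSurf_repS])
      map_smul' := fun c a => by
        rw [RingHom.id_apply, leadFun_congr D k (b := c • repS a) (by simp [toSurf_repS])]
        simp [leadFun, smul_sum, smul_mul_assoc] }
    fun a b => by
      show leadFun D k (repS (a * b)) = a • leadFun D k (repS b) + b • leadFun D k (repS a)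
      rw [leadFun_congr D k (b := repS a * repS b) (by simp [toSurf_repS])]
      simp only [leadFun, pderiv_mul, map_add, map_mul, toSurf_repS, smul_eq_mul, mul_sum,
        ← sum_add_distrib]
      exact sum_congr rfl fun i _ => by ring

theorem leadDer_toSurf (k : ℤ) (h : Space) : leadDer D k (toSurf h) = leadFun D k h :=
  leadFun_congr D k (toSurf_repS _)

theorem deriv_le {k : ℤ} (hk : Bound D k) {r : Surf} {d : ℤ} (hr : LeW (r : Plane) d) :
    LeW (D r : Plane) (d + k) ∧ compS (d + k) (D r) = leadDer D k (compS d r) := by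
  classical
  obtain ⟨h, rfl⟩ := toSurf_surjective r
  have hsum := toSurf_eq_sum_le (h := h) hr
  have hD : D (toSurf h) = ∑ n ∈ (wts h).filter (· ≤ d), D (toSurf (comp3 n h)) := by
    conv_lhs => rw [hsum]
    rw [map_sum]
  constructor
  · intro m hm
    rw [hD, AddSubmonoidClass.coe_finset_sum, map_sum]
    refine sum_eq_zero fun n hn => leW_deriv_hom D hk (comp3_hom n h) m ?_
    have := (mem_filter.1 hn).2
    omega
  · have hlow : ∀ n, n < d → compS (d + k) (D (toSurf (comp3 n h))) = 0 := fun n hn =>
      Subtype.ext (leW_deriv_hom D hk (comp3_hom n h) (d + k) (by omega))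
    rw [compS_toSurf d h, leadDer_toSurf, leadFun_hom D (comp3_hom d h)]
    refine Subtype.ext ?_
    show comp (d + k) (D (toSurf h) : Plane) = comp (d + k) (D (toSurf (comp3 d h)) : Plane)
    rw [hD, AddSubmonoidClass.coe_finset_sum, map_sum]
    rw [Finset.sum_eq_single d]
    · intro n hn hne
      have := (mem_filter.1 hn).2
      exact congrArg Subtype.val (hlow n (lt_of_le_of_ne this hne))
    · intro hd
      have h0 : comp3 d h = 0 := by
        ext e
        simp only [comp3, coeff_weightedHomogeneousComponent, coeff_zero, ite_eq_right_iff]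
        intro he
        by_contra hc
        exact hd (mem_filter.2 ⟨he ▸ mem_image_of_mem _ (mem_support_iff.2 hc), le_rfl⟩)
      simp [h0]

theorem leadDer_isLN {k : ℤ} (hk : Bound D k) (hD : IsLN D) : IsLN (leadDer D k) := by
  classical
  have hom : ∀ (n : ℤ) (h : Space), IsWeightedHomogeneous wSpace h n →
      ∃ j, (leadDer D k)^[j] (toSurf h) = 0 := by
    intro n h hh
    obtain ⟨j, hj⟩ := hD (toSurf h)
    refine ⟨j, ?_⟩
    have key : ∀ i : ℕ, LeW ((D^[i] (toSurf h) : Surf) : Plane) (n + i * k) ∧
        compS (n + i * k) (D^[i] (toSurf h)) = (leadDer D k)^[i] (toSurf h) := by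
      intro i
      induction i with
      | zero =>
        have hp := isHom_toPlane hh
        refine ⟨fun m hm => ?_, Subtype.ext ?_⟩
        · simp only [Nat.cast_zero, zero_mul, add_zero] at hm
          exact hp.weightedHomogeneousComponent_ne m (by omega)
        · show comp (n + ((0 : ℕ) : ℤ) * k) (toPlane h) = toPlane h
          simpa [comp] using hp.weightedHomogeneousComponent_same
      | succ i ih =>
        obtain ⟨h1, h2⟩ := deriv_le D hk ih.1
        simp only [Function.iterate_succ_apply']
        rw [show n + ((i + 1 : ℕ) : ℤ) * k = n + i * k + k by push_cast; ring]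
        exact ⟨h1, by rw [h2, ih.2]⟩
    rw [← (key j).2, hj, compS_zero]
  intro r
  obtain ⟨h, rfl⟩ := toSurf_surjective r
  rw [← sum_comp3 h, map_sum]
  have hz : ∀ s : Finset ℤ, ∃ j, ∀ n ∈ s, (leadDer D k)^[j] (toSurf (comp3 n h)) = 0 := by
    intro s
    induction s using Finset.induction with
    | empty => exact ⟨0, by simp⟩
    | insert a s _ ih =>
      obtain ⟨j, hj⟩ := ih
      obtain ⟨i, hi⟩ := hom a _ (comp3_hom a h)
      refine ⟨max i j, fun n hn => ?_⟩
      rcases mem_insert.1 hn with rfl | hn
      · exact iter_eq_zero_of_le _ hi (le_max_left _ _)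
      · exact iter_eq_zero_of_le _ (hj n hn) (le_max_right _ _)
  obtain ⟨j, hj⟩ := hz (wts h)
  refine ⟨j, ?_⟩
  have hiter : ∀ (s : Finset ℤ) (f : ℤ → Surf),
      (leadDer D k)^[j] (∑ n ∈ s, f n) = ∑ n ∈ s, (leadDer D k)^[j] (f n) := fun s f =>
    map_sum (⟨⟨(leadDer D k)^[j], iter_zero _ j⟩, iter_add _ j⟩ : Surf →+ Surf) f s
  rw [hiter]
  exact sum_eq_zero hj

/-- A nonzero derivation has a nonzero leading derivation for a suitable shift. -/
theorem exists_shift (hD : ∃ i, D (gS i) ≠ 0) :
    ∃ k, Bound D k ∧ ∃ i, lead D k i ≠ 0 := by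
  classical
  let S : Finset ℤ := univ.biUnion fun i : Fin 3 =>
    ((D (gS i) : Plane).support.image fun d => Finsupp.weight wPlane d - wSpace i)
  have hne : S.Nonempty := by
    obtain ⟨i, hi⟩ := hD
    obtain ⟨d, hd⟩ := (MvPolynomial.support_nonempty).2
      (fun h : (D (gS i) : Plane) = 0 => hi (Subtype.ext h))
    exact ⟨_, mem_biUnion.2 ⟨i, mem_univ _, mem_image_of_mem _ hd⟩⟩
  refine ⟨S.max' hne, fun i m hm => ?_, ?_⟩
  · ext d
    simp only [comp, coeff_weightedHomogeneousComponent, coeff_zero, ite_eq_right_iff]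
    intro hd
    by_contra hc
    have := le_max' S _ (mem_biUnion.2 ⟨i, mem_univ _, mem_image_of_mem _ (mem_support_iff.2 hc)⟩)
    omega
  · obtain ⟨i, -, hi⟩ := mem_biUnion.1 (max'_mem S hne)
    obtain ⟨d, hd, hd'⟩ := mem_image.1 hi
    refine ⟨i, fun h0 => mem_support_iff.1 hd ?_⟩
    have h1 : comp (wSpace i + S.max' hne) (D (gS i) : Plane) = 0 := congrArg Subtype.val h0
    have h2 := congrArg (coeff d) h1
    simp only [comp, coeff_weightedHomogeneousComponent, coeff_zero] at h2
    rwa [if_pos (by omega)] at h2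

theorem leadDer_gS (k : ℤ) (i : Fin 3) : leadDer D k (gS i) = lead D k i := by
  rw [gS, leadDer_toSurf, leadFun]
  simp [pderiv_X, Pi.single_apply, apply_ite toSurf, ite_mul]

end Vale.Agent.P295.Fib
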