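import Vale.Agent.P295.Fib.Leading

/-!
No nonzero locally nilpotent derivation of the surface ring kills a nonzero function vanishing on
the two lines `{v = 0, q = 1}` and `{u = 0, q = -1}`.
-/

namespace Vale.Agent.P295.Fib

open MvPolynomial Finset

/-- Restriction to the line `v = 0, q = 1`. -/
noncomputable def onM : Space →ₐ[ℂ] Polynomial ℂ := aeval ![Polynomial.X, 0, 1]

/-- Restriction to the line `u = 0, q = -1`. -/
noncomputable def onL : Space →ₐ[ℂ] Polynomial ℂ := aeval ![0, Polynomial.X, -1]

theorem poly_eq_zero_of_ne {p : Polynomial ℂ} (h : ∀ t : ℂ, t ≠ 0 → p.eval t = 0) : p = 0 :=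
  Polynomial.eq_zero_of_infinite_isRoot p
    ((Set.infinite_univ.sdiff (Set.finite_singleton (0 : ℂ))).mono fun t ht => h t ht.2)

theorem eval_aeval_poly (g : Fin 3 → Polynomial ℂ) (z : ℂ) (h : Space) :
    (aeval g h).eval z = eval (fun i => (g i).eval z) h := by
  induction h using MvPolynomial.induction_on with
  | C c => simp
  | add p q hp hq => simp [hp, hq]
  | mul_X p i hp => simp [hp]

theorem eval_toPlane (a : Fin 2 → ℂ) (h : Space) :
    eval a (toPlane h) = eval (fun i => eval a (img i)) h := by
  induction h using MvPolynomial.induction_on with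
  | C c => simp [toPlane]
  | add p q hp hq => simp [hp, hq]
  | mul_X p i hp => rw [map_mul, map_mul, map_mul, hp]; simp [toPlane]

theorem limit_eq_zero {h : Space} (h0 : toPlane h = 0) (g : Fin 3 → Polynomial ℂ)
    (hg : ∀ z : ℂ, z ≠ 0 → ∃ a : Fin 2 → ℂ, (fun i => (g i).eval z) = fun i => eval a (img i)) :
    eval (fun i => (g i).eval 0) h = 0 := by
  have : aeval g h = 0 := poly_eq_zero_of_ne fun z hz => by
    obtain ⟨a, ha⟩ := hg z hz
    rw [eval_aeval_poly, ha, ← eval_toPlane, h0, map_zero]
  rw [← eval_aeval_poly, this, Polynomial.eval_zero]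

theorem onM_eq_zero {h : Space} (h0 : toPlane h = 0) : onM h = 0 := by
  refine poly_eq_zero_of_ne fun t ht => ?_
  have h1 := limit_eq_zero h0
    ![Polynomial.C t, Polynomial.X * (1 + Polynomial.X) * (2 + Polynomial.X) * Polynomial.C t⁻¹,
      1 + Polynomial.X] fun z hz => ⟨![t / z, (1 + z) * z / t], funext fun i => by
        fin_cases i <;> simp [img] <;> field_simp <;> ring⟩
  rw [onM, eval_aeval_poly]
  refine (congrArg (fun z => eval z h) (funext fun i => ?_)).trans h1
  fin_cases i <;> simp

theorem onL_eq_zero {h : Space} (h0 : toPlane h = 0) : onL h = 0 := by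
  refine poly_eq_zero_of_ne fun t ht => ?_
  have h1 := limit_eq_zero h0
    ![Polynomial.X * (-1 + Polynomial.X) * (-2 + Polynomial.X) * Polynomial.C t⁻¹, Polynomial.C t,
      -1 + Polynomial.X] fun z hz => ⟨![(-1 + z) * z / t, t / z], funext fun i => by
        fin_cases i <;> simp [img] <;> field_simp <;> ring⟩
  rw [onL, eval_aeval_poly]
  refine (congrArg (fun z => eval z h) (funext fun i => ?_)).trans h1
  fin_cases i <;> simp

theorem onM_congr {a b : Space} (h : toSurf a = toSurf b) : onM a = onM b := by
  rw [← sub_eq_zero, ← map_sub]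
  exact onM_eq_zero (by rw [map_sub, sub_eq_zero]; exact congrArg Subtype.val h)

theorem onL_congr {a b : Space} (h : toSurf a = toSurf b) : onL a = onL b := by
  rw [← sub_eq_zero, ← map_sub]
  exact onL_eq_zero (by rw [map_sub, sub_eq_zero]; exact congrArg Subtype.val h)

theorem weight_wSpace (d : Fin 3 →₀ ℕ) : Finsupp.weight wSpace d = (d 0 : ℤ) - d 1 := by
  rw [Finsupp.weight_apply, Finsupp.sum_fintype _ _ (fun i => zero_nsmul (wSpace i)),
    Fin.sum_univ_three]
  simp [wSpace]
  ring

theorem comp3_monomial (n : ℤ) (d : Fin 3 →₀ ℕ) (c : ℂ) :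
    comp3 n (monomial d c) = if (d 0 : ℤ) - d 1 = n then monomial d c else 0 := by
  classical
  have := weightedHomogeneousComponent_of_mem (m := n)
    (isWeightedHomogeneous_monomial wSpace d c (weight_wSpace d))
  simpa [comp3, eq_comm] using this

theorem aeval3_monomial (g : Fin 3 → Polynomial ℂ) (d : Fin 3 →₀ ℕ) (c : ℂ) :
    aeval g (monomial d c) = Polynomial.C c * (g 0 ^ d 0 * g 1 ^ d 1 * g 2 ^ d 2) := by
  rw [aeval_monomial, Finsupp.prod_fintype _ _ fun _ => pow_zero _, Fin.prod_univ_three]
  rfl

theorem onM_comp3 (n : ℤ) (h : Space) (hh : onM h = 0) : onM (comp3 n h) = 0 := by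
  suffices key : ∀ g j, (onM (comp3 n g)).coeff j = if (j : ℤ) = n then (onM g).coeff j else 0 by
    ext j
    rw [key, hh]
    simp
  intro g j
  induction g using MvPolynomial.induction_on' with
  | monomial d c =>
    rw [comp3_monomial]
    have hv : onM (monomial d c) = if d 1 = 0 then Polynomial.C c * Polynomial.X ^ d 0 else 0 := by
      rw [onM, aeval3_monomial]
      split_ifs with hd
      · simp [hd]
      · simp [zero_pow hd]
    by_cases hn : (d 0 : ℤ) - d 1 = n
    · rw [if_pos hn, hv]
      split_ifs with hd hj hj <;> try rfl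
      · rw [Polynomial.coeff_C_mul_X_pow, if_neg]
        intro h
        subst h
        exact hj (by rw [← hn, hd]; simp)
    · rw [if_neg hn, map_zero, hv]
      split_ifs with hj hd hd <;> try simp
      · intro h
        subst h
        exact absurd (by rw [← hj, hd]; simp) hn
  | add p q hp hq =>
    simp only [map_add, Polynomial.coeff_add, hp, hq]
    split_ifs <;> simp

theorem onL_comp3 (n : ℤ) (h : Space) (hh : onL h = 0) : onL (comp3 n h) = 0 := by
  suffices key : ∀ g j, (onL (comp3 n g)).coeff j = if -(j : ℤ) = n then (onL g).coeff j else 0 by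
    ext j
    rw [key, hh]
    simp
  intro g j
  induction g using MvPolynomial.induction_on' with
  | monomial d c =>
    rw [comp3_monomial]
    have hv : onL (monomial d c) = if d 0 = 0 then Polynomial.C ((-1) ^ d 2 * c) * Polynomial.X ^ d 1 else 0 := by
      rw [onL, aeval3_monomial]
      split_ifs with hd
      · simp [hd] <;> ring
      · simp [zero_pow hd]
    by_cases hn : (d 0 : ℤ) - d 1 = n
    · rw [if_pos hn, hv]
      split_ifs with hd hj hj <;> try rfl
      · rw [Polynomial.coeff_C_mul_X_pow, if_neg]
        intro h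
        subst h
        exact hj (by rw [← hn, hd]; simp)
    · rw [if_neg hn, map_zero, hv]
      split_ifs with hj hd hd <;> try simp only [Polynomial.coeff_zero]
      · rw [Polynomial.coeff_C_mul_X_pow, if_neg]
        intro h
        subst h
        exact absurd (by rw [← hj, hd]; simp) hn
  | add p q hp hq =>
    simp only [map_add, Polynomial.coeff_add, hp, hq]
    split_ifs <;> simp

end Vale.Agent.P295.Fib
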