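import Vale.Agent.P295.Fib.Surface

/-!
The key lemma on the surface `u v = q (q² - 1)`.
-/

namespace Vale.Agent.P295.Fib

open MvPolynomial Finset

theorem toSurf_uv : toSurf (X 0) * toSurf (X 1) = toSurf (X 2 * (X 2 * X 2 - 1)) := by
  refine Subtype.ext ?_
  rw [MulMemClass.coe_mul, coe_toSurf, coe_toSurf, coe_toSurf]
  simp [toPlane, img]
  ring

theorem gS_ne_zero (i : Fin 3) : gS i ≠ 0 := by
  intro h
  have h1 := congrArg (fun p => eval ![(2 : ℂ), 3] p) (congrArg Subtype.val h)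
  fin_cases i <;> simp [gS, toPlane, img] at h1 <;> norm_num at h1

theorem exists_two_var {i j : Fin 3} (hij : (i = 0 ∧ j = 1) ∨ (i = 1 ∧ j = 0)) (h : Space) :
    ∃ (N : ℕ) (p : MvPolynomial (Fin 2) ℂ),
      toSurf (h * X i ^ N) = toSurf (aeval ![X i, X 2] p) := by
  have hφ : toSurf (X i * X j) = toSurf (X 2 * (X 2 * X 2 - 1)) := by
    rw [← toSurf_uv, map_mul]
    rcases hij with ⟨rfl, rfl⟩ | ⟨rfl, rfl⟩
    · rfl
    · exact mul_comm _ _
  induction h using MvPolynomial.induction_on with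
  | C c => exact ⟨0, C c, by simp⟩
  | add f g hf hg =>
    obtain ⟨N, p, hp⟩ := hf
    obtain ⟨M, r, hr⟩ := hg
    refine ⟨N + M, p * X 0 ^ M + r * X 0 ^ N, ?_⟩
    simp only [map_add, map_mul, map_pow, aeval_X, Matrix.cons_val, pow_add] at hp hr ⊢
    rw [← hp, ← hr]
    ring
  | mul_X f k hf =>
    obtain ⟨N, p, hp⟩ := hf
    simp only [map_mul, map_pow] at hp hφ
    have hk : k = i ∨ k = 2 ∨ k = j := by
      rcases hij with ⟨rfl, rfl⟩ | ⟨rfl, rfl⟩ <;> fin_cases k <;> simp
    rcases hk with rfl | rfl | rfl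
    · refine ⟨N, p * X 0, ?_⟩
      simp only [map_mul, map_pow, aeval_X, Matrix.cons_val, ← hp]
      ring
    · refine ⟨N, p * X 1, ?_⟩
      simp only [map_mul, map_pow, aeval_X, Matrix.cons_val, ← hp]
      ring
    · refine ⟨N + 1, p * (X 1 * (X 1 * X 1 - 1)), ?_⟩
      simp only [map_mul, map_pow, map_sub, map_one, aeval_X, Matrix.cons_val, ← hp] at hφ ⊢
      rw [← hφ]
      ring

theorem two_var_injective {i j : Fin 3} (hij : (i = 0 ∧ j = 1) ∨ (i = 1 ∧ j = 0))
    {p : MvPolynomial (Fin 2) ℂ} (h : toSurf (aeval ![X i, X 2] p) = 0) : p = 0 := by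
  refine MvPolynomial.funext_set (fun _ => ({0, 1, -1} : Set ℂ)ᶜ) (fun _ =>
    (Set.toFinite _).infinite_compl) fun z hz => ?_
  simp only [Set.mem_univ_pi, Set.mem_compl_iff, Set.mem_insert_iff, Set.mem_singleton_iff,
    not_or] at hz
  obtain ⟨ha0, -, -⟩ := hz 0
  obtain ⟨hb0, hb1, hb2⟩ := hz 1
  have h1 : z 1 - 1 ≠ 0 := sub_ne_zero.2 hb1
  have h2 : z 1 + 1 ≠ 0 := fun e => hb2 (eq_neg_of_add_eq_zero_left e)
  have h0 : toPlane (aeval ![X i, X 2] p) = 0 := congrArg Subtype.val h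
  obtain ⟨a, ha, hb⟩ : ∃ a : Fin 2 → ℂ, eval a (img i) = z 0 ∧ eval a (img 2) = z 1 := by
    rcases hij with ⟨rfl, rfl⟩ | ⟨rfl, rfl⟩
    · exact ⟨![z 0 / (z 1 - 1), z 1 * (z 1 - 1) / z 0],
        by simp [img]; field_simp, by simp [img]; field_simp⟩
    · exact ⟨![z 1 * (z 1 + 1) / z 0, z 0 / (z 1 + 1)],
        by simp [img]; field_simp, by simp [img]; field_simp⟩
  have h3 := congrArg (eval a) h0
  rw [eval_toPlane, map_zero] at h3
  have h4 : eval (fun l => eval a (img l)) (aeval ![X i, X 2] p) = eval z p := by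
    clear h h0 h3
    induction p using MvPolynomial.induction_on with
    | C c => simp
    | add p q hp hq => simp only [map_add, hp, hq]
    | mul_X p l hp =>
      rw [map_mul, map_mul, map_mul, hp]
      fin_cases l <;> simp [ha, hb]
  rw [map_zero, ← h4, h3]

theorem deriv_aeval_two {i : Fin 3} (D : Derivation ℂ Surf Surf)
    (hi : D (gS i) = 0) (p : MvPolynomial (Fin 2) ℂ) :
    D (toSurf (aeval ![X i, X 2] p)) = toSurf (aeval ![X i, X 2] (pderiv 1 p)) * D (gS 2) := by
  induction p using MvPolynomial.induction_on with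
  | C c =>
    rw [show toSurf (aeval ![X i, X 2] (C c)) = algebraMap ℂ Surf c by
      rw [aeval_C, toSurf.commutes]]
    simp
  | add p q hp hq => simp only [map_add, hp, hq, add_mul]
  | mul_X p l hp =>
    rw [map_mul, map_mul, D.leibniz, hp, pderiv_mul]
    fin_cases l
    · simp only [Fin.zero_eta, aeval_X, Matrix.cons_val, smul_eq_mul]
      rw [show toSurf (X i) = gS i from rfl, hi, pderiv_X_of_ne (by decide : (0 : Fin 2) ≠ 1)]
      simp only [map_add, map_mul, map_zero, aeval_X, Matrix.cons_val, gS]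
      ring
    · simp only [Fin.mk_one, aeval_X, Matrix.cons_val, smul_eq_mul, pderiv_X_self]
      simp only [map_add, map_mul, map_one, aeval_X, Matrix.cons_val, gS]
      ring

theorem eq_aeval_first {p : MvPolynomial (Fin 2) ℂ} (hp : pderiv 1 p = 0) (c : ℂ) :
    aeval ![X 0, C c] p = p := by
  classical
  conv_rhs => rw [← aeval_X_left_apply p]
  refine eval₂Hom_congr' rfl (fun l hl _ => ?_) rfl
  fin_cases l
  · rfl
  · exfalso
    obtain ⟨d, hd, hd1⟩ := (mem_vars_iff_mem_support (1 : Fin 2)).1 hl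
    have h1 := congrArg (coeff (d - Finsupp.single 1 1)) hp
    rw [coeff_zero, coeff_pderiv, tsub_add_cancel_of_le] at h1
    · rcases mul_eq_zero.1 h1 with h2 | h2
      · exact (mem_support_iff.1 hd) h2
      · exact Nat.cast_add_one_ne_zero ((d - Finsupp.single 1 1 : Fin 2 →₀ ℕ) 1) h2
    · rw [Finsupp.single_le_iff]
      exact Nat.one_le_iff_ne_zero.2 (Finsupp.mem_support_iff.1 hd1)

theorem deriv_ne_zero_middle (D : Derivation ℂ Surf Surf) (hne : ∃ i, D (gS i) ≠ 0)
    {i : Fin 3} (hi2 : i ≠ 2) (hi : D (gS i) = 0) : D (gS 2) ≠ 0 := by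
  intro h2
  have h : D (toSurf (X 0) * toSurf (X 1)) = 0 := by
    rw [toSurf_uv]
    simp only [map_mul, map_sub, map_one]
    simp only [gS] at h2
    simp [D.leibniz, h2]
  rw [D.leibniz, smul_eq_mul, smul_eq_mul] at h
  obtain ⟨l, hl⟩ := hne
  apply hl
  fin_cases i
  · simp only [Fin.zero_eta, gS] at hi
    rw [hi, mul_zero, add_zero] at h
    have h1 := (mul_eq_zero.1 h).resolve_left (gS_ne_zero 0)
    fin_cases l <;> assumption
  · simp only [Fin.mk_one, gS] at hi
    rw [hi, mul_zero, zero_add] at h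
    have h1 := (mul_eq_zero.1 h).resolve_left (gS_ne_zero 1)
    fin_cases l <;> assumption
  · exact absurd rfl hi2

theorem endgame {i j : Fin 3} (hij : (i = 0 ∧ j = 1) ∨ (i = 1 ∧ j = 0))
    (on : Space →ₐ[ℂ] Polynomial ℂ) (c : ℂ) (hon : on (X i) = Polynomial.X)
    (hc : on (X 2) = Polynomial.C c)
    (hcongr : ∀ {a b : Space}, toSurf a = toSurf b → on a = on b)
    (D : Derivation ℂ Surf Surf) (hne : ∃ l, D (gS l) ≠ 0) (hi : D (gS i) = 0)
    {h : Space} (hk : D (toSurf h) = 0) (hv : on h = 0) : toSurf h = 0 := by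
  obtain ⟨N, p, hp⟩ := exists_two_var hij h
  have hi2 : i ≠ 2 := by rcases hij with ⟨rfl, -⟩ | ⟨rfl, -⟩ <;> decide
  have h1 : D (toSurf (h * X i ^ N)) = 0 := by
    rw [map_mul, map_pow, D.leibniz, hk, smul_zero, D.leibniz_pow,
      show D (toSurf (X i)) = 0 from hi]
    simp
  rw [hp, deriv_aeval_two D hi] at h1
  have hd : pderiv 1 p = 0 := two_var_injective hij
    ((mul_eq_zero.1 h1).resolve_right (deriv_ne_zero_middle D hne hi2 hi))
  have h2 := hcongr hp
  rw [map_mul, hv, zero_mul] at h2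
  have h3 : p = 0 := by
    have hpol : aeval ![Polynomial.X, Polynomial.C c] p = (0 : Polynomial ℂ) := by
      rw [h2, ← AlgHom.comp_apply]
      congr 1
      refine algHom_ext fun l => ?_
      fin_cases l <;> simp [hon, hc]
    have h4 := congrArg (Polynomial.aeval (X 0 : MvPolynomial (Fin 2) ℂ)) hpol
    rw [map_zero, ← AlgHom.comp_apply] at h4
    rw [← eq_aeval_first hd c, ← h4]
    congr 1
    refine algHom_ext fun l => ?_
    fin_cases l <;> simp
  rw [h3, map_zero, map_zero, map_mul, map_pow] at hp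
  exact (mul_eq_zero.1 hp).resolve_right (pow_ne_zero _ (gS_ne_zero i))

theorem surface_no_kernel (D : Derivation ℂ Surf Surf) (hD : IsLN D) (hne : ∃ i, D (gS i) ≠ 0)
    {h : Space} (hk : D (toSurf h) = 0) (hM : onM h = 0) (hL : onL h = 0) : toSurf h = 0 := by
  classical
  obtain ⟨k, hb, i₁, hi₁⟩ := exists_shift D hne
  set E := leadDer D k with hE
  have hEn : IsLN E := leadDer_isLN D hb hD
  have hEne : ∃ i, E (gS i) ≠ 0 := ⟨i₁, by rwa [leadDer_gS]⟩
  by_contra hr
  have hS : ((wts h).filter fun n => toSurf (comp3 n h) ≠ 0).Nonempty := by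
    rw [Finset.nonempty_iff_ne_empty]
    intro he
    apply hr
    rw [← sum_comp3 h, map_sum]
    refine sum_eq_zero fun n hn => ?_
    by_contra hc
    have : n ∈ (wts h).filter fun n => toSurf (comp3 n h) ≠ 0 := mem_filter.2 ⟨hn, hc⟩
    rw [he] at this
    exact absurd this (notMem_empty n)
  set d := Finset.max' _ hS
  have hd : toSurf (comp3 d h) ≠ 0 := (mem_filter.1 (max'_mem _ hS)).2
  have hle : LeW (toSurf h : Plane) d := by
    intro m hm
    rw [coe_toSurf, comp_toPlane]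
    by_cases hc : m ∈ wts h
    · by_contra hcc
      have := le_max' ((wts h).filter fun n => toSurf (comp3 n h) ≠ 0) m
        (mem_filter.2 ⟨hc, fun (e : toSurf (comp3 m h) = 0) => hcc (congrArg Subtype.val e)⟩)
      omega
    · have : comp3 m h = 0 := by
        ext e
        simp only [comp3, coeff_weightedHomogeneousComponent, coeff_zero, ite_eq_right_iff]
        intro he
        by_contra h'
        exact hc (he ▸ mem_image_of_mem _ (mem_support_iff.2 h'))
      rw [this, map_zero]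
  have hEk : E (toSurf (comp3 d h)) = 0 := by
    have := (deriv_le D hb hle).2
    rw [hk, compS_zero, compS_toSurf] at this
    exact this.symm
  have hdvd : ∀ (i : Fin 3) (e : ℤ), (i = 0 ∧ 0 < e) ∨ (i = 1 ∧ e < 0) →
      ∀ r : Surf, compS e r = r → ∃ b, r = b * gS i := by
    intro i e hie r hr'
    obtain ⟨g, rfl⟩ := toSurf_surjective r
    rw [compS_toSurf] at hr'
    have hdiv : X i ∣ comp3 e g := by
      rw [X_dvd_iff_modMonomial_eq_zero]
      ext m
      by_cases hm : Finsupp.single i 1 ≤ m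
      · rw [coeff_modMonomial_of_le _ hm, coeff_zero]
      · rw [coeff_modMonomial_of_not_le _ hm, coeff_zero, comp3,
          coeff_weightedHomogeneousComponent, if_neg]
        rw [Finsupp.single_le_iff, not_le, Nat.lt_one_iff] at hm
        rw [weight_wSpace]
        rcases hie with ⟨rfl, he⟩ | ⟨rfl, he⟩ <;> omega
    obtain ⟨b, hb'⟩ := hdiv
    exact ⟨toSurf b, by rw [← hr', hb', map_mul, mul_comm]; rfl⟩
  have hlead : ∀ i, compS (wSpace i + k) (E (gS i)) = E (gS i) := by
    intro i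
    rw [hE, leadDer_gS, lead]
    obtain ⟨g, hg⟩ := toSurf_surjective (D (gS i))
    rw [← hg, compS_toSurf, compS_toSurf]
    congr 1
    exact (comp3_hom _ g).weightedHomogeneousComponent_same
  have hkill : E (gS 0) = 0 ∨ E (gS 1) = 0 := by
    rcases le_or_gt 0 k with hk0 | hk0
    · obtain ⟨b, hb'⟩ := hdvd 0 (wSpace 0 + k)
        (Or.inl ⟨rfl, by simp [wSpace]; omega⟩) _ (hlead 0)
      exact Or.inl (eq_zero_of_dvd E hEn hb')
    · obtain ⟨b, hb'⟩ := hdvd 1 (wSpace 1 + k)
        (Or.inr ⟨rfl, by simp [wSpace]; omega⟩) _ (hlead 1)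
      exact Or.inr (eq_zero_of_dvd E hEn hb')
  rcases hkill with h0 | h1
  · exact hd (endgame (Or.inl ⟨rfl, rfl⟩) onM 1 (by simp [onM]) (by simp [onM]) onM_congr E hEne h0
      hEk (onM_comp3 d h hM))
  · exact hd (endgame (Or.inr ⟨rfl, rfl⟩) onL (-1) (by simp [onL]) (by simp [onL]) onL_congr E hEne
      h1 hEk (onL_comp3 d h hL))

end Vale.Agent.P295.Fib
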